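import Vale.Agent.P287T.Rb.Gen
import Vale.Agent.P287T.Rr.Hom

/-!
# The complex of maps between two families: the bundles and their characters
-/

set_option linter.unusedSectionVars false

namespace Vale.Agent.P287T.Rb

open Set Function Module Matrix MvPolynomial P291Z P269 P269.Ch P269.Grr P287T.Rr P287T.Cy P287T.Fa
  P287Z.O P287Z.O.L

variable {ι κ μ : Type} [Fintype ι] [Fintype κ] [Fintype μ]

section wc

variable {T : Type} [TopologicalSpace T] {p : ι → ℤ} {q : κ → ℤ} {j : ℤ}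

theorem wc_MM {f : T → Matrix κ ι S6} (hf : ∀ t, f t ∈ MM p q j)
    (h : ∀ i k m, Continuous fun t => coeff m (f t i k)) : WC f :=
  WC.pi fun i => WC.pi fun k => (WC.sum _ fun m => (WC.const (monomial m (1 : ℂ))).smul
    (h i k m)).congr fun t => (hg_eq_sum (hf t i k)).symm

theorem wc_mat {f : T → Matrix κ ι ℂ} (h : Continuous f) : WC f :=
  WC.pi fun i => WC.pi fun k => WC.of_cont (h.matrix_elem i k)

theorem wc_cM {f : T → Matrix κ ι ℂ} (h : Continuous f) : WC fun t => cM (f t) :=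
  (wc_mat h).map ⟨⟨cM, cM_add⟩, cM_smul⟩

/-- the product of matrices -/
noncomputable def mulB (μ κ ι : Type) [Fintype κ] :
    Matrix μ κ S6 →ₗ[ℂ] Matrix κ ι S6 →ₗ[ℂ] Matrix μ ι S6 :=
  LinearMap.mk₂ ℂ (fun a b => a * b) Matrix.add_mul Matrix.smul_mul Matrix.mul_add
    fun c a b => Matrix.mul_smul a c b

theorem WC.mul_l {r : μ → ℤ} {a : T → Matrix μ κ S6} {b : T → Matrix κ ι S6} (ha : WC a)
    (hm : ∀ t, a t ∈ MM q r j) (hb : WC b) : WC fun t => a t * b t :=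
  WC.bil' (mulB μ κ ι) ha hm hb

theorem WC.mul_r {a : T → Matrix μ κ S6} {b : T → Matrix κ ι S6} (ha : WC a) (hb : WC b)
    (hm : ∀ t, b t ∈ MM p q j) : WC fun t => a t * b t := WC.bil' (mulB μ κ ι).flip hb hm ha

theorem wc_ev {f : T → Matrix κ ι S6} (hf : WC f) (hm : ∀ t, f t ∈ MM p q j)
    {x : T → Fin 6 → ℂ} (hx : Continuous x) : Continuous fun t => evM (x t) (f t) := by
  let b := finBasis ℂ (MM p q j)
  have h1 := WC.of_inj (f := fun t => (⟨f t, hm t⟩ : MM p q j)) _ (MM p q j).injective_subtype hf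
  refine (continuous_finsetSum Finset.univ fun k _ => (h1 (b.coord k)).smul
    ((continuous_evM (b k).1).comp hx)).congr fun t => ?_
  have := congrArg (evL (x t) ∘ₗ (MM p q j).subtype) (b.sum_repr ⟨f t, hm t⟩)
  rw [map_sum] at this
  exact Eq.trans (Finset.sum_congr rfl fun k _ =>
    (map_smul (evL (x t) ∘ₗ (MM p q j).subtype) _ _).symm) this

end wc

open Classical in
/-- the map `C a → Z (a + 3)` -/
noncomputable def θ (p : ι → ℤ) (d : Matrix ι ι S6) (d' : Matrix κ κ S6) :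
    Matrix κ ι S6 →ₗ[ℂ] Matrix κ ι S6 :=
  (mulB κ ι ι).flip (eps p) ∘ₗ (dl d d' 0).restrictScalars ℂ

theorem MP_ker {p : ι → ℤ} {e : Matrix ι ι ℂ} {d : Matrix ι ι S6} {q : κ → ℤ} {f : Matrix κ κ ℂ}
    {d' : Matrix κ κ S6} {a : ℤ} :
    MP p e q f a ⊓ LinearMap.ker (θ p d d') = ZP p e d q f d' a := by
  classical
  exact Submodule.ext fun g => ⟨fun h => (seq_ker h.1).1 h.2, fun h => ⟨h.1, (seq_ker h.1).2 h⟩⟩

variable {B B' : Ch.Sp} {W : S6} {p : ι → ℤ} {e : B.T → Matrix ι ι ℂ} {d : B.T → Matrix ι ι S6}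
  {q : κ → ℤ} {f : B.T → Matrix κ κ ℂ} {d' : B.T → Matrix κ κ S6} {a : ℤ}

/-- the pull-back of a family -/
theorem _root_.Vale.Agent.P287T.Rr.EF.pb (h : EF B W p e d) (m : Mor B' B)
    (cn : PreconnectedSpace B'.T) : EF B' W p (fun t => e (m.f t)) fun t => d (m.f t) :=
  ⟨h.pf.comp m.cf, fun g t => by rw [m.eqv, h.ie], fun g t => by rw [m.eqv, h.id], cn⟩

/-- the constant family -/
theorem efConst {e : Matrix ι ι ℂ} {d : Matrix ι ι S6} (h : IsPF W p e d) (hW : V.Hg 6 W)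
    (B : Ch.Sp) (cn : PreconnectedSpace B.T) : EF B W p (fun _ => e) fun _ => d :=
  ⟨h.const hW _, fun _ _ => rfl, fun _ _ => rfl, cn⟩

/-- the character of the maps of charge `a` -/
noncomputable def cc (_ : EF B W p e d) (_ : EF B W q f d') (a : ℤ) : PowerSeries (Hev B.X) :=
  ch (tv B _) fun t => MP p (e t) q (f t) a

/-- the character of the closed maps of charge `a` -/
noncomputable def zz (_ : EF B W p e d) (_ : EF B W q f d') (a : ℤ) : PowerSeries (Hev B.X) :=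
  ch (tv B _) fun t => ZP p (e t) (d t) q (f t) (d' t) a

/-- the character of the Koszul cycles of the closed maps -/
noncomputable def rr (hE : EF B W p e d) (hF : EF B W q f d') : ℕ → ℤ → PowerSeries (Hev B.X)
  | 0, a => zz hE hF a
  | j + 1, a => ch (tv B _) fun t => FF (ZP p (e t) (d t) q (f t) (d' t) a) (j + 1)

/-- **the character of the complex of maps** (independent of `K` for large `K`) -/
noncomputable def RH (hE : EF B W p e d) (hF : EF B W q f d') (K : ℕ) : PowerSeries (Hev B.X) :=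
  rh (cc hE hF) (zz hE hF) K

variable (hE : EF B W p e d) (hF : EF B W q f d')
include hE

theorem wc_d : WC d := wc_MM (fun t => (hE.pf.pf t).deg) hE.pf.cd

include hF

theorem isB_MP (a : ℤ) : IsB (tv B _) fun t => MP p (e t) q (f t) a :=
  have := hE.cn
  (isB_const B (MM p q a)).1.fix (π := fun t => sand (cM (f t)) (cM (e t)))
    ⟨fun t _ h => (sand_mem (hE.pf.pf t) (hF.pf.pf t) h).1, fun g =>
      ((wc_cM hF.pf.ce).mul_l (fun t => (hF.pf.pf t).blk.mm) (WC.const g)).mul_r (wc_cM hE.pf.ce)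
        fun t => (hE.pf.pf t).blk.mm, fun g t _ _ => by rw [hE.ie, hF.ie]; rfl⟩
    (fun t _ h => (sand_mem (hE.pf.pf t) (hF.pf.pf t) h).2) fun _ _ => Iff.rfl

theorem hm_θ (a : ℤ) : HM (tv B _) (fun t => MP p (e t) q (f t) a) (tv B _)
    (fun t => ZP p (e t) (d t) q (f t) (d' t) (a + 3)) fun t => θ p (d t) (d' t) := by
  classical
  refine ⟨fun t _ h => seq_mem (hE.pf.pf t) (hF.pf.pf t) h, fun g => ?_, fun g t _ _ => ?_⟩
  · have h : WC fun t => dl (d t) (d' t) 0 g :=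
      (((wc_d hF).mul_l (fun t => (hF.pf.pf t).deg) (WC.const g)).sub ((WC.const g).mul_r (wc_d hE)
        fun t => (hE.pf.pf t).deg)).congr fun t => (dl_zero g).symm
    exact h.map ((mulB κ ι ι).flip (eps p))
  · rw [hE.id, hF.id]
    rfl

theorem hm_θ' (a : ℤ) : HM (tv B _) (fun t => MP p (e t) q (f t) a) (tv B _)
    (fun t => MP p (e t) q (f t) (a + 3)) fun t => θ p (d t) (d' t) :=
  (hm_θ hE hF a).mono (fun _ => le_rfl) fun t g h => ((hm_θ hE hF a).mem t g h).1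

theorem θ_surj (hs : Sm W) (ha : bd p q + 4 ≤ a) (t : B.T) :
    ∀ g ∈ ZP p (e t) (d t) q (f t) (d' t) (a + 3),
      ∃ g' ∈ MP p (e t) q (f t) a, θ p (d t) (d' t) g' = g := fun _ h => by
  classical
  exact seq_surj (hE.pf.pf t) (hF.pf.pf t) (hE.pf.hW t) hs ha h

theorem isB_ZP (hs : Sm W) (ha : bd p q + 7 ≤ a) :
    IsB (tv B _) fun t => ZP p (e t) (d t) q (f t) (d' t) a := by
  obtain ⟨a, rfl⟩ : ∃ b, a = b + 3 := ⟨a - 3, by ring⟩
  have := hE.cn
  simp only [← MP_ker]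
  exact (isB_MP hE hF a).ker_ex (isB_MP hE hF _) (isB_MP hE hF _) (hm_θ' hE hF a) (hm_θ' hE hF _)
    fun t g hg => ⟨fun h => θ_surj hE hF hs (by omega) t g (MP_ker.le ⟨hg, h⟩), by
      rintro ⟨g', h, rfl⟩
      exact (MP_ker.ge ((hm_θ hE hF a).mem t g' h)).2⟩

theorem kf (hs : Sm W) : KF (fun t => ZP p (e t) (d t) q (f t) (d' t)) (bd p q + 16) :=
  ⟨fun _ _ => isB_ZP hE hF hs (by omega), fun _ => mu_ZP, fun t _ j ha =>
    ke_ZP (hE.pf.pf t) (hF.pf.pf t) (hE.pf.hW t) hs ha j, hE.cn⟩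

theorem rr_eq (hs : Sm W) (ha : bd p q + 16 ≤ a) : ∀ j, rr hE hF j a =
    ch (tv B _) fun t => FF (ZP p (e t) (d t) q (f t) (d' t) a) j
  | 0 => ((kf hE hF hs).chF0 ha).symm
  | _ + 1 => rfl

theorem zz_add (hs : Sm W) (ha : bd p q + 7 ≤ a) : zz hE hF a + zz hE hF (a + 3) = cc hE hF a := by
  have h := isB_ZP hE hF hs ha
  rw [zz]
  simp only [← MP_ker] at h ⊢
  exact ((isB_MP hE hF a).ch_ker (isB_ZP hE hF hs (by omega)) (hm_θ hE hF a) h
    (θ_surj hE hF hs (by omega))).symm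

theorem cc_zero (ha : a < -bd p q) : cc hE hF a = 0 := ch_bot fun _ _ => MP_eq_zero ha

theorem zz_zero (ha : a < -bd p q) : zz hE hF a = 0 := ch_bot fun _ _ h => MP_eq_zero ha h.1

theorem cc_pb (m : Mor B' B) (cn : PreconnectedSpace B'.T) (a : ℤ) :
    cc (hE.pb m cn) (hF.pb m cn) a = pS m.map (cc hE hF a) := ((isB_MP hE hF a).pb m).2

theorem zz_pb (hs : Sm W) (m : Mor B' B) (cn : PreconnectedSpace B'.T) (ha : bd p q + 7 ≤ a) :
    zz (hE.pb m cn) (hF.pb m cn) a = pS m.map (zz hE hF a) := ((isB_ZP hE hF hs ha).pb m).2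

theorem bd_nonneg (p : ι → ℤ) (q : κ → ℤ) : 0 ≤ bd p q :=
  Finset.sum_nonneg fun _ _ => abs_nonneg _

/-- naturality -/
theorem RH_pb (hs : Sm W) (m : Mor B' B) (cn : PreconnectedSpace B'.T) {K : ℕ}
    (hK : bd p q + 7 ≤ 3 * K) : RH (hE.pb m cn) (hF.pb m cn) K = pS m.map (RH hE hF K) := by
  simp only [RH, rh, map_add, map_sum, map_mul, map_pow, map_neg, map_one, map_intCast, cc_pb hE hF,
    zz_pb hE hF hs m cn hK]

theorem RH_deg (K k : ℕ) : PowerSeries.coeff k (RH hE hF K) ∈ Hev.deg B.X k := by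
  have h : ∀ (n : ℤ) {y : PowerSeries (Hev B.X)}, PowerSeries.coeff k y ∈ Hev.deg B.X k →
      PowerSeries.coeff k ((n : PowerSeries (Hev B.X)) * y) ∈ Hev.deg B.X k := fun n y h => by
    rw [← zsmul_eq_mul, map_zsmul]
    exact zsmul_mem h n
  rw [RH, rh, map_add, map_sum]
  refine add_mem (sum_mem fun _ _ => h _ (ch_deg _ _ k)) ?_
  simpa only [Int.cast_pow, Int.cast_neg, Int.cast_one, zz] using h ((-1) ^ K) (ch_deg _ _ k)

end Vale.Agent.P287T.Rb
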