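import Vale.Agent.P287T.Rb.Gen
import Vale.Agent.P269.Ch.Tot

/-!
# Quotient bundles and complexes of families
-/

set_option linter.unusedSectionVars false

namespace Vale.Agent.P287T.Rb

open Set Function Module P291Z P269.Ch P269.Grr PowerSeries P287T.Rr

variable {M M' : Type} [AddCommGroup M] [Module ℂ M] [AddCommGroup M'] [Module ℂ M']
  {Y : P269.Ch.Sp} {ρ : Y.G → M →ₗ[ℂ] M} {F G : Y.T → Submodule ℂ M} {ρ' : Y.G → M' →ₗ[ℂ] M'}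
  {F' G' : Y.T → Submodule ℂ M'} {A : Y.T → M →ₗ[ℂ] M'}

theorem WC.app2 {Z : Type} [TopologicalSpace Z] {P : Submodule ℂ M} [FiniteDimensional ℂ P]
    {f : Z → M} {A : Z → M →ₗ[ℂ] M'} (hf : WC f) (hP : ∀ z, f z ∈ P)
    (hA : ∀ m, WC fun z => A z m) : WC fun z => A z (f z) := by
  let b := finBasis ℂ P
  have h1 := WC.of_inj (f := fun z => (⟨f z, hP z⟩ : P)) _ P.injective_subtype hf
  refine (WC.sum Finset.univ fun k => (hA (b k)).smul (h1 (b.coord k))).congr fun z => ?_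
  have := congrArg (A z ∘ₗ P.subtype) (b.sum_repr ⟨f z, hP z⟩)
  rw [map_sum] at this
  exact Eq.trans (Finset.sum_congr rfl fun k _ => (map_smul (A z ∘ₗ P.subtype) _ _).symm) this

theorem IsB.ker' (h : IsB ρ F) (h' : IsB ρ' F') (k : HM ρ F ρ' F' A)
    (hr : ∀ t t', finrank ℂ (F t ⊓ LinearMap.ker (A t) : Submodule ℂ M) =
      finrank ℂ (F t' ⊓ LinearMap.ker (A t') : Submodule ℂ M)) :
    IsB ρ fun t => F t ⊓ LinearMap.ker (A t) := by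
  rcases isEmpty_or_nonempty Y.T with _ | ⟨⟨t₀⟩⟩
  exacts [h.ker h' k (r := 0) fun t => isEmptyElim t, h.ker h' k fun t => hr t t₀]

/-- the action on a bundle -/
abbrev ac (L : VB Y) (g : Y.G) : L.W →ₗ[ℂ] L.W := DistribSMul.toLinearMap ℂ L.W g

/-- `L` is the quotient of `F` by `G`, with the projection `q` and the section `s` -/
structure Qt (ρ : Y.G → M →ₗ[ℂ] M) (F G : Y.T → Submodule ℂ M) (L : VB Y)
    (q : Y.T → M →ₗ[ℂ] L.W) (s : Y.T → L.W →ₗ[ℂ] M) : Prop where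
  hq : HM ρ F (ac L) L.F q
  hs : HM (ac L) L.F ρ F s
  qs : ∀ t, ∀ w ∈ L.F t, q t (s t w) = w
  ker : ∀ t, ∀ m ∈ F t, q t m = 0 ↔ m ∈ G t
  fin : ∃ P : Submodule ℂ M, FiniteDimensional ℂ P ∧ ∀ t, F t ≤ P

namespace Qt

variable {L L' : VB Y} {q : Y.T → M →ₗ[ℂ] L.W} {s : Y.T → L.W →ₗ[ℂ] M} {q' : Y.T → M' →ₗ[ℂ] L'.W}
  {s' : Y.T → L'.W →ₗ[ℂ] M'} (h : Qt ρ F G L q s)
include h

theorem sub_mem {t : Y.T} {m : M} (hm : m ∈ F t) : m - s t (q t m) ∈ G t :=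
  (h.ker t _ (_root_.sub_mem hm (h.hs.mem t _ (h.hq.mem t m hm)))).1 (by
    rw [map_sub, h.qs t _ (h.hq.mem t m hm), sub_self])

theorem rank (t : Y.T) [FiniteDimensional ℂ (F t)] (le : G t ≤ F t) :
    L.r + finrank ℂ (G t) = finrank ℂ (F t) := by
  rw [← finrank_map_add (F t) (q t), ← L.rank t,
    show (F t).map (q t) = L.F t from le_antisymm (by rintro _ ⟨m, hm, rfl⟩; exact h.hq.mem t m hm)
      fun w hw => ⟨_, h.hs.mem t w hw, h.qs t w hw⟩,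
    show F t ⊓ LinearMap.ker (q t) = G t from Submodule.ext fun m =>
      ⟨fun k => (h.ker t m k.1).1 k.2, fun k => ⟨le k, (h.ker t m (le k)).2 k⟩⟩]

variable (h' : Qt ρ' F' G' L' q' s')
include h'

/-- the map induced on the quotients -/
theorem hom (k : HM ρ F ρ' F' A) : Hom (Mor.id Y) L L' fun t => q' t ∘ₗ A t ∘ₗ s t := by
  obtain ⟨P, _, hP⟩ := h.fin
  obtain ⟨P', _, hP'⟩ := h'.fin
  have c : Continuous fun x : L.V => x.1.1 := by fun_prop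
  refine ⟨fun t w hw => h'.hq.mem t _ (k.mem t _ (h.hs.mem t w hw)), WC.cont ?_, fun g t w hw => ?_⟩
  · exact WC.app2 (A := fun x : L.V => q' x.1.1) (WC.app2 (A := fun x : L.V => A x.1.1)
      ((WC.app h.hs.cont).comp continuous_subtype_val) (fun x => hP _ (h.hs.mem _ _ x.2))
      fun m => (k.cont m).comp c) (fun x => hP' _ (k.mem _ _ (h.hs.mem _ _ x.2)))
      fun m => (h'.hq.cont m).comp c
  · have h1 := h.hs.mem t w hw
    exact (congrArg (fun m => q' (g • t) (A (g • t) m)) (h.hs.eqv g t w hw)).trans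
      ((congrArg (q' (g • t)) (k.eqv g t _ h1)).trans (h'.hq.eqv g t _ (k.mem t _ h1)))

theorem zero_iff {t : Y.T} {φ : M →ₗ[ℂ] M'} (mem : ∀ m ∈ F t, φ m ∈ F' t)
    (mG : ∀ m ∈ G t, φ m ∈ G' t) :
    (∀ w ∈ L.F t, q' t (φ (s t w)) = 0) ↔ ∀ m ∈ F t, φ m ∈ G' t :=
  ⟨fun k m hm => by
    have h1 := h.hq.mem t m hm
    rw [← sub_add_cancel m (s t (q t m)), map_add]
    exact add_mem (mG _ (h.sub_mem hm)) ((h'.ker t _ (mem _ (h.hs.mem t _ h1))).1 (k _ h1)),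
  fun k w hw => (h'.ker t _ (mem _ (h.hs.mem t w hw))).2 (k _ (h.hs.mem t w hw))⟩

end Qt

/-- **cokernels** -/
theorem IsB.coker (h : IsB ρ F) (h' : IsB ρ' F') (k : HM ρ F ρ' F' A)
    (hk : IsB ρ fun t => F t ⊓ LinearMap.ker (A t)) :
    ∃ L q s, Qt ρ' F' (fun t => (F t).map (A t)) L q s ∧
      ch ρ' F' + ch ρ (fun t => F t ⊓ LinearMap.ker (A t)) = ch ρ F + L.chc := by
  obtain ⟨E, j, h⟩ := h
  obtain ⟨E', j', h'⟩ := h'
  obtain ⟨E₀, j₀, h₀⟩ := hk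
  have i : HM ρ (fun t => F t ⊓ LinearMap.ker (A t)) ρ F _ := HM.incl fun _ => inf_le_left
  obtain ⟨E₁, B₁, -, x₁⟩ := (h₀.hom h i).exists_coker (h₀.tr_inj h i fun _ _ _ e => e)
  obtain ⟨R, S₁, hR, hS₁, -, a1, -, a2, -⟩ := x₁.exists_split
  have a3 : ∀ t, ∀ v ∈ E₀.F t, A t (j (Md.tr j₀ j (fun _ => LinearMap.id) t v)) = 0 :=
    fun t v hv => (congrArg _ (h₀.j_tr h i hv)).trans (h₀.mem.2 hv).2
  obtain ⟨L, B₂, -, x₂⟩ := ((h.hom h' k).comp hS₁).exists_coker fun t w hw e => by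
    have h1 := hS₁.mem t w hw
    rw [← a1 t w hw]
    exact (x₁.ex t _ h1).2 (h₀.tr_ex h i ⟨_, ⟨h.mem.2 h1, (h.tr_zero h' k h1).1 e⟩, rfl⟩)
  obtain ⟨-, S₂, -, hS₂, -, a4, -⟩ := x₂.exists_split
  have a5 : ∀ t, ∀ m ∈ F' t, x₂.hB.clm t (j'.leftInverse m) = B₂ t (j'.leftInverse m) :=
    fun t m hm => x₂.hB.clm_eq (h'.lft_mem hm)
  refine ⟨L, fun t => (x₂.hB.clm t : E'.W →ₗ[ℂ] L.W) ∘ₗ j'.leftInverse,
    fun t => j' ∘ₗ (hS₂.clm t : L.W →ₗ[ℂ] E'.W), ⟨⟨fun t m hm => ?_, fun m => WC.of_cont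
      (x₂.hB.continuous_clm.clm_apply continuous_const), fun g t m hm => ?_⟩,
      ⟨fun t w hw => ?_, fun w => (WC.of_cont (hS₂.continuous_clm.clm_apply continuous_const)).map j',
        fun g t w hw => ?_⟩, fun t w hw => ?_, fun t m hm => ?_,
      LinearMap.range j', inferInstance, fun _ _ hm => ⟨_, h'.rgt hm⟩⟩, ?_⟩
  · exact (a5 t m hm).symm ▸ x₂.hB.mem t _ (h'.lft_mem hm)
  · obtain ⟨w, hw, rfl⟩ := (h'.map t).ge hm
    show x₂.hB.clm _ (j'.leftInverse (ρ' g (j' w))) = g • x₂.hB.clm _ (j'.leftInverse (j' w))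
    rw [← h'.eqv g t w hw, h'.lft, h'.lft]
    exact x₂.hB.clm_smul g t w
  · exact h'.mem.2 ((hS₂.clm_eq hw).symm ▸ hS₂.mem t w hw)
  · exact (congrArg j' (hS₂.clm_smul g t w)).trans
      (h'.eqv g t _ ((hS₂.clm_eq hw).symm ▸ hS₂.mem t w hw))
  · show x₂.hB.clm t (j'.leftInverse (j' (hS₂.clm t w))) = w
    rw [h'.lft, hS₂.clm_eq hw]
    exact (x₂.hB.clm_eq (t := t) (hS₂.mem t w hw)).trans (a4 t w hw)
  · refine ((congrArg (· = 0) (a5 t m hm)).to_iff.trans (x₂.ex t _ (h'.lft_mem hm))).trans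
      ⟨?_, ?_⟩
    · rintro ⟨w, hw, e⟩
      have h1 := hS₁.mem t w hw
      exact ⟨_, h.mem.2 h1, (h.j_tr h' k h1).symm.trans ((congrArg j' e).trans (h'.rgt hm))⟩
    · rintro ⟨m, hm', rfl⟩
      obtain ⟨v, hv, rfl⟩ := (h.map t).ge hm'
      refine ⟨_, x₁.hB.mem t v hv, congrArg j'.leftInverse ?_⟩
      conv_rhs => rw [← a2 t v hv, map_add, map_add, a3 t _ (hR.mem t v hv), zero_add]
      rfl
  · rw [h.ch, h'.ch, h₀.ch, Exact.chc x₁, Exact.chc x₂]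
    ring

/-- **a complex of families as a complex of bundles** -/
theorem exists_cx [Nonempty Y.T] {F : ℕ → Y.T → Submodule ℂ M} (h : ∀ i, IsB ρ (F i))
    {θ : Y.T → M →ₗ[ℂ] M} (k : ∀ i, HM ρ (F (i + 1)) ρ (F i) θ)
    (dd : ∀ i t, ∀ m ∈ F (i + 2) t, θ t (θ t m) = 0) (n : ℕ)
    (top : ∀ i, n < i → ∀ t, ∀ m ∈ F i t, m = 0) :
    ∃ (K : Cx Y) (j : ∀ i, (K.E i).W →ₗ[ℂ] M), K.n = n ∧ (∀ i, Md ρ (F i) (K.E i) (j i)) ∧
      (∀ i, K.d i = Md.tr (j (i + 1)) (j i) θ) ∧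
      K.chi = ∑ i ∈ Finset.range (n + 1), (-1) ^ i * ch ρ (F i) ∧
      ∀ t, K.Ex t ↔ ∀ i, ∀ m ∈ F i t, (i = 0 ∨ θ t m = 0) → ∃ m' ∈ F (i + 1) t, θ t m' = m := by
  choose E j h using h
  refine ⟨⟨n, E, fun i => Md.tr (j (i + 1)) (j i) θ, fun i => (h _).hom (h i) (k i),
    fun i t w hw => ((h _).tr_zero (h i) (k i) (((h _).hom (h _) (k _)).mem t w hw)).2 ?_,
    fun i hi => ?_⟩, j, rfl, h, fun _ => rfl, Finset.sum_congr rfl fun i _ => by rw [(h i).ch],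
    fun t => forall_congr' fun i => ⟨fun e m hm h0 => ?_, fun e w hw => ?_⟩⟩
  · rw [(h _).j_tr (h _) (k _) hw]
    exact dd i t _ ((h _).mem.2 hw)
  · obtain ⟨t⟩ := ‹Nonempty Y.T›
    rw [← (h i).rank t, show F i t = ⊥ from eq_bot_iff.2 (top i hi t), finrank_bot]
  · obtain ⟨v, hv, rfl⟩ := ((h i).map t).ge hm
    obtain ⟨w, hw, rfl⟩ := e (x := v) (by
      cases i with
      | zero => exact hv
      | succ i => exact ⟨hv, ((h _).tr_zero (h i) (k i) hv).2 (h0.resolve_left i.succ_ne_zero)⟩)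
    exact ⟨_, (h _).mem.2 hw, ((h _).j_tr (h i) (k i) hw).symm⟩
  · refine (h _).tr_ex (h i) (k i) ?_
    cases i with
    | zero => exact e _ ((h 0).mem.2 hw) (.inl rfl)
    | succ i => exact e _ ((h _).mem.2 hw.1) (.inr (((h _).tr_zero (h i) (k i) hw.1).1 hw.2))

end Vale.Agent.P287T.Rb
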