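import Vale.Agent.P287T.Rb.Defs
import Vale.Agent.P287T.Rb.Qt

/-!
# The character of the complex of maps: acyclic complexes, complexes in degree zero, Euler form
-/

set_option linter.unusedSectionVars false

namespace Vale.Agent.P287T.Rb

open Set Function Module Matrix MvPolynomial P291Z P269 P269.Ch P269.Grr P287T.Rr P287T.Cy P287T.Fa
  P287Z.O P287Z.O.L P287Z.T Filter

variable {ι κ μ : Type} [Fintype ι] [Fintype κ] [Fintype μ]

section alg

variable {R : Type} [CommRing R]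

theorem neg_succ (k : ℤ) : (((k + 1).negOnePow : ℤ) : R) = -((k.negOnePow : ℤ) : R) := by
  rw [Int.negOnePow_succ, Units.val_neg, Int.cast_neg]

theorem neg_nat (K : ℕ) : (((K : ℤ).negOnePow : ℤ) : R) = (-1) ^ K := by
  rw [Int.coe_negOnePow_natCast, Int.cast_pow, Int.cast_neg, Int.cast_one]

theorem tele_Ico (c z : ℤ → R) {a b n : ℤ} (h : a ≤ n) (h' : n ≤ b) :
    ∑ k ∈ Finset.Ico a b, (k.negOnePow : ℤ) * c (3 * k) + (b.negOnePow : ℤ) * z (3 * b) =
      ∑ k ∈ Finset.Ico a n, (k.negOnePow : ℤ) * c (3 * k) + (n.negOnePow : ℤ) * z (3 * n) +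
        ∑ k ∈ Finset.Ico n b, (k.negOnePow : ℤ) * (c (3 * k) - z (3 * k) - z (3 * k + 3)) := by
  induction b, h' using Int.leInduction with
  | base => simp
  | succ b hb ih =>
    rw [← Finset.insert_Ico_right_eq_Ico_add_one (h.trans hb),
      ← Finset.insert_Ico_right_eq_Ico_add_one hb, Finset.sum_insert (by simp),
      Finset.sum_insert (by simp), neg_succ, mul_add 3, mul_one]
    linear_combination ih

theorem rh_cut (c z : ℤ → R) {K : ℕ} {n : ℤ} (h : -K ≤ n) (h' : n ≤ K) : rh c z K =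
    ∑ k ∈ Finset.Ico (-K : ℤ) n, (k.negOnePow : ℤ) * c (3 * k) + (n.negOnePow : ℤ) * z (3 * n) +
      ∑ k ∈ Finset.Ico n K, (k.negOnePow : ℤ) * (c (3 * k) - z (3 * k) - z (3 * k + 3)) := by
  rw [← tele_Ico c z h h', neg_nat, rh]

theorem rh_tele (c z : ℤ → R) (K : ℕ) (h0 : z (3 * -K) = 0) : rh c z K =
    ∑ k ∈ Finset.Ico (-K : ℤ) K, (k.negOnePow : ℤ) * (c (3 * k) - z (3 * k) - z (3 * k + 3)) := by
  rw [rh_cut c z le_rfl (by omega), h0]
  simp

end alg

section pt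

variable {W : S6} {p : ι → ℤ} {e : Matrix ι ι ℂ} {d : Matrix ι ι S6} {q : κ → ℤ} {f : Matrix κ κ ℂ}
  {d' : Matrix κ κ S6} {a : ℤ} (hd : IsPF W p e d) (hd' : IsPF W q f d')

/-- the Euler form of two members -/
noncomputable def chiP (p : ι → ℤ) (e : Matrix ι ι ℂ) (d : Matrix ι ι S6) (q : κ → ℤ)
    (f : Matrix κ κ ℂ) (d' : Matrix κ κ S6) : ℤ :=
  ∑ᶠ k : ℤ, (k.negOnePow : ℤ) * finrank ℂ (HP p e d q f d' (3 * k))

instance fin_MP : FiniteDimensional ℂ (MP p e q f a) :=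
  Submodule.finiteDimensional_of_le (S₂ := MM p q a) fun _ h => h.1

instance fin_ZP : FiniteDimensional ℂ (ZP p e d q f d' a) :=
  Submodule.finiteDimensional_of_le (S₂ := MM p q a) fun _ h => h.1.1

include hd hd'

theorem chiP_spl {ι' κ' : Type} [Fintype ι'] [Fintype κ'] [DecidableEq ι'] [DecidableEq κ']
    {r : ι' → ℤ} {u : Matrix ι' ι ℂ} {v : Matrix ι ι' ℂ} {s : κ' → ℤ} {u' : Matrix κ' κ ℂ}
    {v' : Matrix κ κ' ℂ} (h : Spl p e r u v) (h' : Spl q f s u' v') :
    chi r (cM u * d * cM v) s (cM u' * d' * cM v') = chiP p e d q f d' :=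
  finsum_congr fun k => by rw [(h.hp_equiv h' hd hd').some.finrank_eq]

theorem map_θ : (MP p e q f a).map (θ p d d') = BP p e d q f d' (a + 3) := by
  classical
  exact Submodule.ext fun g => (seq_range hd hd').symm

theorem BP_le_ZP : BP p e d q f d' a ≤ ZP p e d q f d' a := by
  classical
  obtain ⟨a, rfl⟩ : ∃ b, a = b + 3 := ⟨a - 3, by ring⟩
  intro g hg
  obtain ⟨g', h, rfl⟩ := (seq_range hd hd').1 hg
  exact seq_mem hd hd' h

theorem finrank_seq : finrank ℂ (ZP p e d q f d' (a + 3)) + finrank ℂ (ZP p e d q f d' a) =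
    finrank ℂ (MP p e q f a) + finrank ℂ (HP p e d q f d' (a + 3)) := by
  rw [← finrank_map_add (MP p e q f a) (θ p d d'), MP_ker, map_θ hd hd',
    ← finrank_hq (BP_le_ZP hd hd')]
  ring

theorem rh_chiP (hW : V.Hg 6 W) (hs : Sm W) {K : ℕ} (hK : bd p q + 7 ≤ 3 * K) :
    rh (fun a => (finrank ℂ (MP p e q f a) : ℤ)) (fun a => finrank ℂ (ZP p e d q f d' a)) K =
      chiP p e d q f d' := by
  have h0 : ∀ a < -bd p q, ZP p e d q f d' a = ⊥ := fun a ha =>
    eq_bot_iff.2 fun _ h => MP_eq_zero ha h.1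
  rw [rh_tele _ _ K (by rw [h0 _ (by omega), finrank_bot, Nat.cast_zero]), chiP,
    ← finsum_comp_equiv (Equiv.addRight 1), finsum_eq_sum_of_support_subset
      (s := Finset.Ico (-K : ℤ) K) _ fun k hk => by_contra fun h => hk ?_]
  · refine Finset.sum_congr rfl fun k _ => ?_
    have := congrArg (Nat.cast : ℕ → ℤ) (finrank_seq hd hd' (a := 3 * k))
    rw [Equiv.coe_addRight, Int.negOnePow_succ, mul_add 3, mul_one]
    push_cast at this ⊢
    linear_combination -(k.negOnePow : ℤ) * this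
  · rw [Finset.coe_Ico, mem_Ico, not_and_or] at h
    have : Subsingleton (HP p e d q f d' (3 * (k + 1))) := hq_subsingleton (h.elim
      (fun h => (h0 _ (by omega)).le.trans bot_le) fun h => ZP_le_BP hd hd' hW hs (by omega))
    exact mul_eq_zero_of_right _ (Nat.cast_eq_zero.2
      (finrank_zero_of_subsingleton (M := HP p e d q f d' (3 * (k + 1)))))

end pt

theorem chiP_one [DecidableEq ι] [DecidableEq κ] {W : S6} {p : ι → ℤ} {d : Matrix ι ι S6}
    {q : κ → ℤ} {d' : Matrix κ κ S6} (hd : IsMF W p d) (hd' : IsMF W q d') :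
    chiP p 1 d q 1 d' = chi p d q d' := by
  rw [← chiP_spl (IsMF.isPF hd) (IsMF.isPF hd') Spl.refl Spl.refl]
  simp only [cM_one, Matrix.one_mul, Matrix.mul_one]

theorem ev_K (p : ι → ℤ) (q : κ → ℤ) : ∀ᶠ K : ℕ in atTop, bd p q + 7 ≤ 3 * K :=
  (eventually_ge_atTop (bd p q + 7).toNat).mono fun K h => by omega

variable {B B' : Ch.Sp} {W : S6} {p : ι → ℤ} {e : B.T → Matrix ι ι ℂ} {d : B.T → Matrix ι ι S6}
  {q : κ → ℤ} {f : B.T → Matrix κ κ ℂ} {d' : B.T → Matrix κ κ S6} {K : ℕ}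
  (hE : EF B W p e d) (hF : EF B W q f d') (hs : Sm W)
include hE hF hs

/-- **the rank is the Euler form** -/
theorem RH_chi (hK : bd p q + 7 ≤ 3 * K) (t : B.T) : PowerSeries.coeff 0 (RH hE hF K) =
    (chiP p (e t) (d t) q (f t) (d' t) : Hev B.X) := by
  rw [← rh_chiP (hE.pf.pf t) (hF.pf.pf t) (hE.pf.hW t) hs hK]
  simp only [RH, rh, PowerSeries.coeff_zero_eq_constantCoeff, map_add, map_sum, map_mul, map_pow,
    map_neg, map_one, map_intCast]
  simp only [← PowerSeries.coeff_zero_eq_constantCoeff_apply, cc, zz,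
    (isB_MP hE hF _).coeff_zero t, (isB_ZP hE hF hs hK).coeff_zero t]
  push_cast
  rfl

variable (m : Mor B' B)

theorem RH_map (hK : bd p q + 7 ≤ 3 * K) : pS m.map (RH hE hF K) =
    rh (fun a => ch (tv B' _) fun t => MP p (e (m.f t)) q (f (m.f t)) a)
      (fun a => ch (tv B' _) fun t =>
        ZP p (e (m.f t)) (d (m.f t)) q (f (m.f t)) (d' (m.f t)) a) K := by
  simp only [RH, rh, map_add, map_sum, map_mul, map_pow, map_neg, map_one, map_intCast, cc, zz,
    ← ((isB_MP hE hF _).pb m).2, ← ((isB_ZP hE hF hs hK).pb m).2]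

omit hs

theorem hm_pb (a : ℤ) : HM (tv B' _) (fun t => MP p (e (m.f t)) q (f (m.f t)) a) (tv B' _)
    (fun t => ZP p (e (m.f t)) (d (m.f t)) q (f (m.f t)) (d' (m.f t)) (a + 3))
    fun t => θ p (d (m.f t)) (d' (m.f t)) :=
  ⟨fun _ => (hm_θ hE hF a).mem _, fun g => ((hm_θ hE hF a).cont g).comp m.cf, fun g t _ _ => by
    rw [m.eqv, hE.id, hF.id]
    rfl⟩

theorem isB_of_rk {a : ℤ} (h : ∀ t t',
    finrank ℂ (ZP p (e (m.f t)) (d (m.f t)) q (f (m.f t)) (d' (m.f t)) a) =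
      finrank ℂ (ZP p (e (m.f t')) (d (m.f t')) q (f (m.f t')) (d' (m.f t')) a)) :
    IsB (tv B' _) fun t => ZP p (e (m.f t)) (d (m.f t)) q (f (m.f t)) (d' (m.f t)) a := by
  simp only [← MP_ker]
  exact ((isB_MP hE hF a).pb m).1.ker' ((isB_MP hE hF (a + 3)).pb m).1
    ((hm_pb hE hF m a).mono (fun _ => le_rfl) fun t g hg => ((hm_pb hE hF m a).mem t g hg).1)
    fun t t' => by rw [MP_ker, MP_ker]; exact h t t'

/-- the closed maps form a bundle if the cohomology has constant rank -/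
theorem isB_cst (h : ∀ (k : ℤ) t t',
    finrank ℂ (HP p (e (m.f t)) (d (m.f t)) q (f (m.f t)) (d' (m.f t)) (3 * k)) =
      finrank ℂ (HP p (e (m.f t')) (d (m.f t')) q (f (m.f t')) (d' (m.f t')) (3 * k))) (k : ℤ) :
    IsB (tv B' _) fun t => ZP p (e (m.f t)) (d (m.f t)) q (f (m.f t)) (d' (m.f t)) (3 * k) := by
  have h0 := bd_nonneg hE hF p q
  rcases le_total (-bd p q - 1) k with hk | hk
  swap
  · exact isB_bot _ fun _ _ h => MP_eq_zero (by omega) h.1
  induction k, hk using Int.leInduction with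
  | base => exact isB_bot _ fun _ _ h => MP_eq_zero (by omega) h.1
  | succ k _ ih =>
    refine isB_of_rk hE hF m fun t t' => ?_
    have h1 := fun t => finrank_seq (hE.pf.pf (m.f t)) (hF.pf.pf (m.f t)) (a := 3 * k)
    have h2 := h1 t
    have h3 := h1 t'
    have h4 := h (k + 1) t t'
    have h5 := ih.rank t t'
    have h6 := (isB_MP hE hF (3 * k)).rank (m.f t) (m.f t')
    rw [mul_add, mul_one] at h4 ⊢
    omega

theorem step {a : ℤ}
    (h : IsB (tv B' _) fun t => ZP p (e (m.f t)) (d (m.f t)) q (f (m.f t)) (d' (m.f t)) a)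
    (h' : IsB (tv B' _) fun t => ZP p (e (m.f t)) (d (m.f t)) q (f (m.f t)) (d' (m.f t)) (a + 3))
    (k : ∀ t, ZP p (e (m.f t)) (d (m.f t)) q (f (m.f t)) (d' (m.f t)) (a + 3) ≤
      BP p (e (m.f t)) (d (m.f t)) q (f (m.f t)) (d' (m.f t)) (a + 3)) :
    ch (tv B' _) (fun t => MP p (e (m.f t)) q (f (m.f t)) a) -
      ch (tv B' _) (fun t => ZP p (e (m.f t)) (d (m.f t)) q (f (m.f t)) (d' (m.f t)) a) -
      ch (tv B' _) (fun t => ZP p (e (m.f t)) (d (m.f t)) q (f (m.f t)) (d' (m.f t)) (a + 3)) =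
        0 := by
  rw [((isB_MP hE hF a).pb m).1.ch_ker h' (hm_pb hE hF m a) (by simpa only [MP_ker] using h)
    fun t g hg => (map_θ (hE.pf.pf _) (hF.pf.pf _)).ge (k t hg)]
  simp only [MP_ker]
  ring

theorem zz_low {a : ℤ} (ha : a < -bd p q) :
    ch (tv B' _) (fun t => ZP p (e (m.f t)) (d (m.f t)) q (f (m.f t)) (d' (m.f t)) a) = 0 :=
  ch_bot fun _ _ h => MP_eq_zero ha h.1

include hs

/-- **fibrewise acyclic complexes** -/
theorem RH_acyc (hK : bd p q + 7 ≤ 3 * K)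
    (h : ∀ t (k : ℤ), ZP p (e (m.f t)) (d (m.f t)) q (f (m.f t)) (d' (m.f t)) (3 * k) ≤
      BP p (e (m.f t)) (d (m.f t)) q (f (m.f t)) (d' (m.f t)) (3 * k)) :
    pS m.map (RH hE hF K) = 0 := by
  have h1 := isB_cst hE hF m fun k t t' => by
    have := hq_subsingleton (h t k)
    have := hq_subsingleton (h t' k)
    rw [finrank_zero_of_subsingleton, finrank_zero_of_subsingleton]
  rw [RH_map hE hF hs m hK, rh_tele _ _ K (zz_low hE hF m (by omega))]
  refine Finset.sum_eq_zero fun k _ => mul_eq_zero_of_right _ (step hE hF m (h1 k) ?_ fun t => ?_)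
  exacts [by simpa only [mul_add, mul_one] using h1 (k + 1),
    by simpa only [mul_add, mul_one] using h t (k + 1)]

/-- **complexes with cohomology in degree zero** -/
theorem RH_H0 (h : ∀ t (k : ℤ), k ≠ 0 →
      ZP p (e (m.f t)) (d (m.f t)) q (f (m.f t)) (d' (m.f t)) (3 * k) ≤
        BP p (e (m.f t)) (d (m.f t)) q (f (m.f t)) (d' (m.f t)) (3 * k)) {r : ℕ}
    (hr : ∀ t, finrank ℂ (HP p (e (m.f t)) (d (m.f t)) q (f (m.f t)) (d' (m.f t)) 0) = r) :
    ∃ L qt s, Qt (tv B' _) (fun t => ZP p (e (m.f t)) (d (m.f t)) q (f (m.f t)) (d' (m.f t)) 0)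
      (fun t => BP p (e (m.f t)) (d (m.f t)) q (f (m.f t)) (d' (m.f t)) 0) L qt s ∧
      (B'.T → L.r = r) ∧ ∀ K : ℕ, bd p q + 7 ≤ 3 * K → pS m.map (RH hE hF K) = L.chc := by
  have h1 := isB_cst hE hF m fun k t t' => by
    by_cases hk : k = 0
    · subst hk
      exact (hr t).trans (hr t').symm
    have := hq_subsingleton (h t k hk)
    have := hq_subsingleton (h t' k hk)
    rw [finrank_zero_of_subsingleton, finrank_zero_of_subsingleton]
  have e0 : (3 * -1 + 3 : ℤ) = 0 := rfl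
  have h6 := hm_pb hE hF m (3 * -1)
  have h7 := h1 0
  rw [e0] at h6
  rw [mul_zero] at h7
  obtain ⟨L, qt, s, h2, h3⟩ := ((isB_MP hE hF (3 * -1)).pb m).1.coker h7 h6
    (by simp only [MP_ker]; exact h1 (-1))
  simp only [MP_ker, map_θ (hE.pf.pf _) (hF.pf.pf _), e0] at h2 h3
  refine ⟨L, qt, s, h2, fun t => ?_, fun K hK => ?_⟩
  · have h4 := h2.rank t (BP_le_ZP (hE.pf.pf _) (hF.pf.pf _))
    have h5 := finrank_hq (BP_le_ZP (hE.pf.pf (m.f t)) (hF.pf.pf (m.f t)) (a := 0))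
    exact Nat.add_right_cancel (h4.trans (h5.symm.trans (congrArg (· + _) (hr t))))
  have h0 := bd_nonneg hE hF p q
  rw [RH_map hE hF hs m hK, rh_tele _ _ K (zz_low hE hF m (by omega)),
    Finset.sum_eq_single_of_mem (-1) (Finset.mem_Ico.2 (by omega)) fun k _ hk =>
      mul_eq_zero_of_right _ (step hE hF m (h1 k) ?_ fun t => ?_)]
  · rw [show ((-1 : ℤ).negOnePow : ℤ) = -1 from rfl, Int.cast_neg, Int.cast_one, e0]
    exact (show ∀ a b c l : PowerSeries (Hev B'.X), c + b = a + l → -1 * (a - b - c) = l from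
      fun _ _ _ _ h => by linear_combination h) _ _ _ _ h3
  exacts [by simpa only [mul_add, mul_one] using h1 (k + 1),
    by simpa only [mul_add, mul_one] using h t (k + 1) (by omega)]

omit hE hF

/-- the Euler form of two matrix factorisations -/
theorem RH_chi_one [DecidableEq ι] [DecidableEq κ] {d : Matrix ι ι S6} {d' : Matrix κ κ S6}
    (hE : EF B W p (fun _ => 1) fun _ => d) (hF : EF B W q (fun _ => 1) fun _ => d')
    (hd : IsMF W p d) (hd' : IsMF W q d') (t : B.T) : ∀ᶠ K in atTop,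
      PowerSeries.coeff 0 (RH hE hF K) = (chi p d q d' : Hev B.X) :=
  (ev_K p q).mono fun _ h => by rw [RH_chi hE hF hs h t, chiP_one hd hd']

end Vale.Agent.P287T.Rb
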