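import Vale.Agent.P287T.Rb.Defs
import Vale.Agent.P287T.Rr.Chh
import Vale.Agent.P287T.Rr.Th

/-!
# The numerical data of the complex of maps between two families
-/

set_option linter.unusedSectionVars false

namespace Vale.Agent.P287T.Rb

open Set Function Module Matrix MvPolynomial P291Z P269 P269.Ch P269.Grr P287T.Rr P287T.Cy P287T.Fa
  P287Z.O P287Z.O.L

variable {ι κ μ : Type} [Fintype ι] [Fintype κ] [Fintype μ]

theorem finrank_HS (n : ℤ) : finrank ℂ (HS n) = (fin_deg n).toFinset.card := by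
  rw [show HS n = restrictSupport ℂ {m : Fin 6 →₀ ℕ | 2 * (m.degree : ℤ) = n} from
    Submodule.ext fun _ => hg_iff, finrank_eq_nat_card_basis (basisRestrictSupport ℂ _),
    Nat.card_eq_card_finite_toFinset]

section blk

variable {p : ι → ℤ} {q : κ → ℤ} {e : Matrix ι ι ℂ} {f : Matrix κ κ ℂ} {u v : ℤ}

/-- the block of the charges `u`, `v` -/
def cut (p : ι → ℤ) (q : κ → ℤ) (u v : ℤ) : Matrix κ ι ℂ →ₗ[ℂ] Matrix κ ι ℂ where
  toFun A := .of fun i l => if q i = v ∧ p l = u then A i l else 0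
  map_add' _ _ := Matrix.ext fun i l => by
    simp only [of_apply, Matrix.add_apply]; split_ifs; exacts [rfl, (add_zero _).symm]
  map_smul' _ _ := Matrix.ext fun i l => by
    simp only [of_apply, Matrix.smul_apply]; split_ifs; exacts [rfl, (smul_zero _).symm]

theorem cut_apply (A : Matrix κ ι ℂ) (i : κ) (l : ι) :
    cut p q u v A i l = if q i = v ∧ p l = u then A i l else 0 := rfl

theorem cut_cut (A : Matrix κ ι ℂ) (u' v' : ℤ) :
    cut p q u v (cut p q u' v' A) = if (u, v) = (u', v') then cut p q u v A else 0 := by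
  ext i l
  rw [cut_apply, cut_apply]
  split_ifs with h1 h2 h3 h4 h5
  exacts [(if_pos h1).symm, absurd (Prod.ext (h1.2.symm.trans h2.2) (h1.1.symm.trans h2.1)) h3,
    absurd ⟨h1.1.trans (congrArg Prod.snd h4), h1.2.trans (congrArg Prod.fst h4)⟩ h2, rfl,
    (if_neg h1).symm, rfl]

theorem cut_sand (he : Blk p p e) (hf : Blk q q f) (A : Matrix κ ι ℂ) :
    f * cut p q u v A * e = cut p q u v (f * A * e) := by
  ext i l
  simp only [cut_apply, Matrix.mul_apply, Finset.sum_mul]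
  split_ifs with h
  · refine Finset.sum_congr rfl fun k _ => Finset.sum_congr rfl fun j _ => ?_
    split_ifs with h'
    · rfl
    · by_cases h1 : q i = q j
      · rw [he k l fun h2 => h' ⟨h1 ▸ h.1, h2 ▸ h.2⟩, mul_zero, mul_zero]
      · simp only [hf i j h1, zero_mul]
  · refine Finset.sum_eq_zero fun k _ => Finset.sum_eq_zero fun j _ => ?_
    split_ifs with h'
    · by_cases h1 : q i = q j
      · rw [he k l fun h2 => h ⟨h1 ▸ h'.1, h2 ▸ h'.2⟩, mul_zero]
      · rw [hf i j h1, zero_mul, zero_mul]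
    · rw [mul_zero, zero_mul]

/-- the maps from the generators of charge `u` to those of charge `v` -/
def Hm (p : ι → ℤ) (e : Matrix ι ι ℂ) (q : κ → ℤ) (f : Matrix κ κ ℂ) (u v : ℤ) :
    Submodule ℂ (Matrix κ ι ℂ) where
  carrier := {A | cut p q u v (f * A * e) = A}
  zero_mem' := by rw [mem_ofPred_eq, Matrix.mul_zero, Matrix.zero_mul, map_zero]
  add_mem' h h' := by rw [mem_ofPred_eq, Matrix.mul_add, Matrix.add_mul, map_add, h, h']
  smul_mem' c _ h := by rw [mem_ofPred_eq, Matrix.mul_smul, Matrix.smul_mul, map_smul, h]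

theorem Hm.cut {A : Matrix κ ι ℂ} (h : A ∈ Hm p e q f u v) : cut p q u v A = A := by
  rw [← show Rb.cut p q u v (f * A * e) = A from h, cut_cut, if_pos rfl]

theorem Hm.sand (he : Blk p p e) (hf : Blk q q f) {A : Matrix κ ι ℂ} (h : A ∈ Hm p e q f u v) :
    f * A * e = A := by rw [← Hm.cut h, cut_sand he hf, h, Hm.cut h]

theorem Hm.zero {A : Matrix κ ι ℂ} (h : A ∈ Hm p e q f u v) {i : κ} {l : ι}
    (k : ¬(q i = v ∧ p l = u)) : A i l = 0 := by rw [← Hm.cut h, cut_apply, if_neg k]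

/-- the coefficients of a monomial -/
noncomputable def coM (m : Fin 6 →₀ ℕ) : Matrix κ ι S6 →ₗ[ℂ] Matrix κ ι ℂ := (lcoeff ℂ m).mapMatrix

/-- a constant matrix times a monomial -/
noncomputable def moM (m : Fin 6 →₀ ℕ) : Matrix κ ι ℂ →ₗ[ℂ] Matrix κ ι S6 :=
  (monomial m : ℂ →ₗ[ℂ] S6).mapMatrix

theorem coM_sand (m : Fin 6 →₀ ℕ) (g : Matrix κ ι S6) :
    coM m (cM f * g * cM e) = f * coM m g * e := Matrix.ext fun i l => by
  show coeff m _ = _
  simp only [Matrix.mul_apply, cM, map_apply, coeff_sum, mul_comm _ (C _), coeff_C_mul,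
    mul_comm _ (e _ l)]
  rfl

theorem moM_eq (m : Fin 6 →₀ ℕ) (A : Matrix κ ι ℂ) : moM m A = (monomial m (1 : ℂ) : S6) • cM A :=
  Matrix.ext fun i l => show monomial m (A i l) = monomial m 1 * C (A i l) by
    rw [mul_comm, C_mul_monomial, mul_one]

theorem cut_mulVec (A : Matrix κ ι ℂ) {w : ι → ℂ} (hw : ∀ l, ¬p l = u → w l = 0) (i : κ) :
    (cut p q u v A *ᵥ w) i = if q i = v then (A *ᵥ w) i else 0 := by
  simp only [Matrix.mulVec, dotProduct, cut_apply]
  split_ifs with h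
  · refine Finset.sum_congr rfl fun l _ => ?_
    split_ifs with h'
    · rfl
    · rw [hw l fun k => h' ⟨h, k⟩, mul_zero, mul_zero]
  · exact Finset.sum_eq_zero fun l _ => by rw [if_neg fun k => h k.1, zero_mul]

theorem col_mem [DecidableEq ι] (he : Blk p p e) (ee : e * e = e) {l : ι} (h : p l = u) :
    e *ᵥ Pi.single l 1 ∈ Vf (fun i => p i = u) e 0 :=
  ⟨fun i hi => by rw [mulVec_single_one]; exact he i l (h ▸ hi), by rw [mulVec_mulVec, ee],
    zero_mulVec _⟩

end blk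

variable {B : Ch.Sp} {W : S6} {p : ι → ℤ} {e : B.T → Matrix ι ι ℂ} {d : B.T → Matrix ι ι S6}
  {q : κ → ℤ} {f : B.T → Matrix κ κ ℂ} {d' : B.T → Matrix κ κ S6}
  (hE : EF B W p e d) (hF : EF B W q f d')
include hE hF

theorem isB_Hm (u v : ℤ) : IsB (tv B _) fun t => Hm p (e t) q (f t) u v :=
  have := hE.cn
  (isB_const B ⊤).1.fix (π := fun t => cut p q u v ∘ₗ
      ⟨⟨fun A => f t * A * e t, fun _ _ => by rw [Matrix.mul_add, Matrix.add_mul]⟩,
        fun _ _ => (congrArg (· * e t) (Matrix.mul_smul _ _ _)).trans (Matrix.smul_mul _ _ _)⟩)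
    ⟨fun _ _ _ => trivial, fun A => (wc_mat ((hF.pf.ce.matrix_mul continuous_const).matrix_mul
      hE.pf.ce)).map (cut p q u v), fun g t _ _ => by rw [hE.ie, hF.ie]; rfl⟩
    (fun t A _ => by
      show cut p q u v (f t * cut p q u v (f t * A * e t) * e t) = cut p q u v (f t * A * e t)
      rw [cut_sand (hE.pf.pf t).blk (hF.pf.pf t).blk, cut_cut, if_pos rfl, ← Matrix.mul_assoc,
        ← Matrix.mul_assoc, (hF.pf.pf t).ee, Matrix.mul_assoc _ (e t), (hE.pf.pf t).ee])
    fun _ _ => ⟨fun h => ⟨trivial, h⟩, fun h => h.2⟩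

theorem ch_Hm (u v : ℤ) :
    ch (tv B _) (fun t => Hm p (e t) q (f t) u v) = du (hE.Vn u).chc * (hF.Vn v).chc := by
  classical
  obtain ⟨D, j, h⟩ := isB_Hm hE hF u v
  have a1 : ∀ {ι : Type} [Fintype ι] (g : B.G) (w : ι → ℂ),
      g • (show (am (1 : B.G →ₜ* ℂˣ) fun _ : ι => 0).W from w) = w := fun g w =>
    (am_smul _ _ g w).trans (funext fun i => by rw [zpow_zero, one_mul])
  rw [h.ch]
  refine chc_hom (ev := fun _ => (Matrix.toLin' : Matrix κ ι ℂ ≃ₗ[ℂ] _).toLinearMap ∘ₗ j)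
    ⟨fun t a (w : ι → ℂ) ha hw => ?_, fun _ _ => continuous_const, fun g t a w ha _ => ?_,
      fun t a ha k => ?_, fun t φ k => ?_⟩
  · have h1 := h.mem.2 ha
    refine ⟨fun i hi => ?_, ?_, zero_mulVec _⟩
    · exact Finset.sum_eq_zero fun l _ => mul_eq_zero_of_left (Hm.zero h1 fun k => hi k.1) _
    · show f t *ᵥ j a *ᵥ w = j a *ᵥ w
      rw [← Hm.sand (hE.pf.pf t).blk (hF.pf.pf t).blk h1, mulVec_mulVec, ← Matrix.mul_assoc,
        ← Matrix.mul_assoc, (hF.pf.pf t).ee]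
  · exact (congrArg₂ (fun (A : Matrix κ ι ℂ) (w : ι → ℂ) => A *ᵥ w) (h.eqv g t a ha)
      (a1 g w)).trans (a1 g _).symm
  · have h1 := h.mem.2 ha
    refine h.inj ((Matrix.ext fun i l => ?_).trans j.map_zero.symm)
    by_cases hl : p l = u
    · have h2 : j a *ᵥ (e t *ᵥ Pi.single l 1) = 0 :=
        k _ (col_mem (hE.pf.pf t).blk (hE.pf.pf t).ee hl)
      rw [← Hm.sand (hE.pf.pf t).blk (hF.pf.pf t).blk h1, Matrix.mul_assoc, Matrix.mul_apply]
      rw [mulVec_mulVec, mulVec_single_one] at h2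
      exact Finset.sum_eq_zero fun k _ => mul_eq_zero_of_right _ (congrFun h2 k)
    · exact Hm.zero h1 fun k => hl k.2
  · let A : Matrix κ ι ℂ := LinearMap.toMatrix' φ
    have h1 : cut p q u v (f t * A * e t) ∈ Hm p (e t) q (f t) u v := by
      show cut p q u v (f t * cut p q u v (f t * A * e t) * e t) = cut p q u v (f t * A * e t)
      rw [cut_sand (hE.pf.pf t).blk (hF.pf.pf t).blk, cut_cut, if_pos rfl, ← Matrix.mul_assoc,
        ← Matrix.mul_assoc, (hF.pf.pf t).ee, Matrix.mul_assoc _ (e t), (hE.pf.pf t).ee]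
    refine ⟨_, h.lft_mem h1, fun (w : ι → ℂ) hw => funext fun i => ?_⟩
    show (j _ *ᵥ w) i = _
    have h2 : e t *ᵥ w = w := hw.2.1
    have h3 : f t *ᵥ φ w = φ w := (k w hw).2.1
    rw [h.rgt h1, cut_mulVec _ hw.1, ← mulVec_mulVec, ← mulVec_mulVec, h2,
      show A *ᵥ w = φ w from LinearMap.toMatrix'_mulVec φ w, h3]
    split_ifs with hi
    exacts [rfl, ((k w hw).1 i hi).symm]

theorem cc_eq (a : ℤ) : cc hE hF a = hE.gen du fun u => hF.gen (fun y => y) fun v =>
    (finrank ℂ (HS (a + u - v)) : PowerSeries (Hev B.X)) := by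
  classical
  have := hE.cn
  rw [cc, IsB.ch_sum (K := Σ _ : ℤ × ℤ, Fin 6 →₀ ℕ)
    (F' := fun k t => Hm p (e t) q (f t) k.1.1 k.1.2) (fun k => isB_Hm hE hF _ _)
    (π := fun k => cut p q k.1.1 k.1.2 ∘ₗ coM k.2) (s := fun k => moM k.2)
    ((Finset.univ.image p ×ˢ Finset.univ.image q).sigma fun x =>
      (fin_deg (a + x.1 - x.2)).toFinset) (isB_MP hE hF a)
    (fun k _ => HM.const fun t g hg => ?_) (fun k hk => HM.const fun t A hA => ?_)
    (fun t g hg => ?_) fun k _ l _ t A hA => ?_]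
  · simp only [Finset.sum_sigma, Finset.sum_product, ch_Hm hE hF, Finset.sum_const, EF.gen,
      Finset.mul_sum, finrank_HS, nsmul_eq_mul]
    exact Finset.sum_congr rfl fun _ _ => Finset.sum_congr rfl fun _ _ => by ring
  · show cut p q _ _ (f t * cut p q _ _ (coM k.2 g) * e t) = cut p q _ _ (coM k.2 g)
    rw [cut_sand (hE.pf.pf t).blk (hF.pf.pf t).blk, cut_cut, if_pos rfl, ← coM_sand, hg.2]
  · refine ⟨fun i l => ?_, ?_⟩
    · show V.Hg _ (monomial k.2 (A i l))
      by_cases h : q i = k.1.2 ∧ p l = k.1.1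
      · refine hg_iff.2 fun m hm => ?_
        rw [Finset.mem_singleton.1 (support_monomial_subset hm), h.1, h.2]
        exact (fin_deg _).mem_toFinset.1 (Finset.mem_sigma.1 hk).2
      · rw [Hm.zero hA h, monomial_zero]
        exact hga_zero _
    · rw [moM_eq, Matrix.mul_smul, Matrix.smul_mul, ← cM_mul, ← cM_mul,
        Hm.sand (hE.pf.pf t).blk (hF.pf.pf t).blk hA]
  · refine Matrix.ext fun i l => ?_
    rw [Matrix.sum_apply, Finset.sum_sigma, Finset.sum_eq_single_of_mem (p l, q i)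
      (Finset.mk_mem_product (Finset.mem_image_of_mem _ (Finset.mem_univ _))
        (Finset.mem_image_of_mem _ (Finset.mem_univ _))) fun x _ hx =>
      Finset.sum_eq_zero fun m _ => ?_]
    · refine Eq.trans (Finset.sum_congr rfl fun m _ => ?_) (hg_eq_sum (hg.1 i l)).symm
      show monomial m (cut p q _ _ (coM m g) i l) = _
      rw [cut_apply, if_pos ⟨rfl, rfl⟩, smul_monomial, smul_eq_mul, mul_one]
      rfl
    · show monomial m (cut p q _ _ (coM m g) i l) = _
      rw [cut_apply, if_neg fun h => hx (Prod.ext h.2.symm h.1.symm), monomial_zero]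
  · obtain ⟨⟨u, v⟩, m⟩ := k
    obtain ⟨⟨u', v'⟩, m'⟩ := l
    have h1 : coM m (moM m' A) = if m' = m then A else 0 := Matrix.ext fun i l => by
      show coeff m (monomial m' (A i l)) = _
      rw [coeff_monomial]
      split_ifs <;> rfl
    show cut p q u v (coM m (moM m' A)) = _
    rw [h1]
    by_cases h : m' = m
    · rw [if_pos h, ← Hm.cut hA, cut_cut]
      by_cases h' : (u, v) = (u', v')
      · rw [if_pos h', if_pos (by rw [h', h])]
        cases h'
        rfl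
      · rw [if_neg h', if_neg fun k => h' (congrArg Sigma.fst k)]
    · rw [if_neg h, map_zero, if_neg fun k => h (congrArg (fun x : Σ _ : ℤ × ℤ, Fin 6 →₀ ℕ => x.2)
        k).symm]

omit hE hF in
/-- **The numerical data.** -/
theorem nd (A : Amb W) {e : A.B.T → Matrix ι ι ℂ} {d : A.B.T → Matrix ι ι S6}
    {f : A.B.T → Matrix κ κ ℂ} {d' : A.B.T → Matrix κ κ S6} (hE : EF A.B W p e d)
    (hF : EF A.B W q f d') : Nd A hE hF (cc hE hF) (zz hE hF) (rr hE hF) (bd p q + 18) := by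
  have k := kf hE hF A.sm
  refine ⟨cc_eq hE hF, fun a ha => zz_add hE hF A.sm (by omega), fun _ => rfl, fun a j ha => ?_,
    fun a => ch_bot fun _ ω _ => om_top (by norm_num) ω, fun h a ha => ?_⟩
  · rw [rr_eq hE hF A.sm (by omega), rr_eq hE hF A.sm (by omega)]
    exact k.chF (by omega) j
  have := A.cY
  have h1 := fun j => (k.isF (a := 2 * a) (by omega) j).tw A.π (A.χ ^ (-(a + j)))
  rw [← (md_self h.vb).ch, beil (χ := A.χ) (ψ := fun j => A.χ ^ (-(a + j))) (x := A.x)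
    (ev := fun t => evL (A.x t)) (fun j g => ?_) A.cx A.eqx (fun j => (h1 j).1) ⟨_, _, md_self _⟩
    ⟨fun t g hg => ev_Z0 _ (by omega) hg, fun g => wc_mat ((continuous_evM g).comp A.cx),
      fun g t m hm => ?_⟩ (fun t => isEv_evL _) (fun t u hu => ev_surj (hE.pf.pf _) (hF.pf.pf _)
        (hE.pf.hW (A.π.f t)) A.sm (A.nx t) (by omega) (by omega) hu)
    fun t j => ae_ZP (hE.pf.pf _) (hF.pf.pf _) (hE.pf.hW (A.π.f t)) A.sm (A.nx t) (by omega) j,
    A.Θ_sum]
  · refine Finset.sum_congr rfl fun j _ => ?_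
    rw [A.Θ_mul, A.Θ_mul, A.Θ_C, A.Θ_tw, rr_eq hE hF A.sm (by omega), A.Θ_eq, map_pow, map_neg,
      map_one, mul_assoc, mul_comm (pS _ _), show -((2 * a + 2 * j : ℤ) : ℂ) / 2 =
        ((-(a + j) : ℤ) : ℂ) by push_cast; ring, Int.cast_smul_eq_zsmul, ← c1_zpow, ← (h1 j).2]
  · rw [zp_apply, zp_apply, ← zpow_add_one₀ (A.χ g).ne_zero]
    congr 1
    push_cast
    ring
  · refine Matrix.ext fun i l => Eq.trans ?_ (chm_smul _ g (evL (A.x t) m) i l).symm
    show eval (A.x (g • t)) (((A.χ ^ (-(a + (0 : ℕ)))) g : ℂ) • m i l) = _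
    rw [smul_eval, A.eqx, zp_apply, zp_apply, mul_comm]
    exact hg_eval (hm.1.1 i l) (A.χ g).ne_zero _ fun k => by push_cast; omega

end Vale.Agent.P287T.Rb
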