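import Vale.Agent.P269.Grr.Alt
import Vale.Agent.P287T.Rr.Kos

/-!
# Bundles given by families of subspaces of an arbitrary vector space
-/

set_option linter.unusedSectionVars false

namespace Vale.Agent.P287T.Rb

open Set Function Module P291Z P269.Ch P269.Grr PowerSeries P287T.Rr

variable {M M' M'' : Type} [AddCommGroup M] [Module ℂ M] [AddCommGroup M'] [Module ℂ M']
  [AddCommGroup M''] [Module ℂ M'']

section wc

variable {Z Z' : Type} [TopologicalSpace Z] [TopologicalSpace Z'] {f f' : Z → M}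

/-- weak continuity -/
def WC (f : Z → M) : Prop := ∀ l : M →ₗ[ℂ] ℂ, Continuous fun z => l (f z)

namespace WC

theorem const (m : M) : WC fun _ : Z => m := fun _ => continuous_const

theorem map (h : WC f) (L : M →ₗ[ℂ] M') : WC fun z => L (f z) := fun l => h (l ∘ₗ L)

theorem add (h : WC f) (h' : WC f') : WC fun z => f z + f' z := fun l =>
  ((h l).add (h' l)).congr fun _ => (l.map_add _ _).symm

theorem sub (h : WC f) (h' : WC f') : WC fun z => f z - f' z := fun l =>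
  ((h l).sub (h' l)).congr fun _ => (l.map_sub _ _).symm

theorem smul (h : WC f) {c : Z → ℂ} (hc : Continuous c) : WC fun z => c z • f z := fun l =>
  (hc.smul (h l)).congr fun _ => (l.map_smul _ _).symm

theorem sum {K : Type} (s : Finset K) {f : K → Z → M} (h : ∀ k, WC (f k)) :
    WC fun z => ∑ k ∈ s, f k z := fun l => by
  simpa only [map_sum] using continuous_finsetSum s fun k _ => h k l

theorem comp (h : WC f) {g : Z' → Z} (hg : Continuous g) : WC fun z => f (g z) := fun l =>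
  (h l).comp hg

theorem congr (h : WC f) (e : ∀ z, f z = f' z) : WC f' := funext e ▸ h

theorem of_inj (Φ : M →ₗ[ℂ] M') (hΦ : Injective Φ) (h : WC fun z => Φ (f z)) : WC f :=
  (h.map Φ.leftInverse).congr fun _ =>
    LinearMap.leftInverse_apply_of_inj (LinearMap.ker_eq_bot.2 hΦ) _

theorem pi {K : Type} [Fintype K] {f : Z → K → M} (h : ∀ k, WC fun z => f z k) : WC f := by
  classical
  exact (sum Finset.univ fun k => (h k).map (LinearMap.single ℂ (fun _ => M) k)).congr fun z =>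
    Finset.univ_sum_single (f z)

theorem om {j : ℕ} {f : Z → Om M j} (h : ∀ v, WC fun z => f z v) : WC f := by
  refine of_inj (M' := (Fin j → Fin 6) → M)
    ⟨⟨fun ω σ => ω fun i => ee (σ i), fun _ _ => rfl⟩, fun _ _ => rfl⟩ (fun a b e => ?_)
    (pi fun σ => h _)
  refine (Pi.basisFun ℂ (Fin 6)).ext_alternating fun σ _ => ?_
  simp only [Pi.basisFun_apply]
  exact congrFun e σ

theorem bil [FiniteDimensional ℂ M] {g : Z → M'} (B : M →ₗ[ℂ] M' →ₗ[ℂ] M'') (hf : WC f)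
    (hg : WC g) : WC fun z => B (f z) (g z) := by
  let b := finBasis ℂ M
  refine (sum Finset.univ fun k => (hg.map (B (b k))).smul (hf (b.coord k))).congr fun z => ?_
  conv_rhs => rw [← b.sum_repr (f z)]
  simp only [map_sum, map_smul, LinearMap.sum_apply, LinearMap.smul_apply, Basis.coord_apply]

theorem bil' {P : Submodule ℂ M} [FiniteDimensional ℂ P] {g : Z → M'}
    (B : M →ₗ[ℂ] M' →ₗ[ℂ] M'') (hf : WC f) (hP : ∀ z, f z ∈ P) (hg : WC g) :
    WC fun z => B (f z) (g z) :=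
  bil (f := fun z => (⟨f z, hP z⟩ : P)) (B ∘ₗ P.subtype) (of_inj P.subtype P.injective_subtype hf)
    hg

variable {W W' : Type} [NormedAddCommGroup W] [NormedSpace ℂ W] [NormedAddCommGroup W']
  [NormedSpace ℂ W'] {g : Z → W}

theorem of_fd (P : Submodule ℂ W) [FiniteDimensional ℂ P] (h : Continuous g) (hP : ∀ z, g z ∈ P) :
    WC g := fun l => (l.domRestrict P).continuous_of_finiteDimensional.comp (h.subtype_mk hP)

variable [FiniteDimensional ℂ W]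

theorem of_cont (h : Continuous g) : WC g := fun l => l.continuous_of_finiteDimensional.comp h

theorem cont (h : WC g) : Continuous g := by
  let b := finBasis ℂ W
  rw [show g = fun z => ∑ k, b.coord k (g z) • b k from funext fun z => (b.sum_repr _).symm]
  exact continuous_finsetSum _ fun k _ => (h _).smul continuous_const

theorem app {A : Z → W →ₗ[ℂ] M} (h : ∀ w, WC fun z => A z w) : WC fun x : Z × W => A x.1 x.2 := by
  let b := finBasis ℂ W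
  refine (sum Finset.univ fun k => ((h (b k)).comp continuous_fst).smul
    ((b.coord k).continuous_of_finiteDimensional.comp continuous_snd)).congr fun x => ?_
  conv_rhs => rw [← b.sum_repr x.2]
  simp only [map_sum, map_smul, Basis.coord_apply, comp_apply]

end WC

end wc

variable {Y Y' : P269.Ch.Sp}

/-- the bundle `E` is a model of the family `F` with the action `ρ` -/
structure Md (ρ : Y.G → M →ₗ[ℂ] M) (F : Y.T → Submodule ℂ M) (E : VB Y) (j : E.W →ₗ[ℂ] M) :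
    Prop where
  inj : Injective j
  map : ∀ t, (E.F t).map j = F t
  eqv : ∀ (g : Y.G) t, ∀ w ∈ E.F t, j (g • w) = ρ g (j w)

/-- the family `F` with the action `ρ` is a vector bundle -/
def IsB (ρ : Y.G → M →ₗ[ℂ] M) (F : Y.T → Submodule ℂ M) : Prop := ∃ E j, Md ρ F E j

open Classical in
/-- **the Chern character of a family** -/
noncomputable def ch (ρ : Y.G → M →ₗ[ℂ] M) (F : Y.T → Submodule ℂ M) : (Hev Y.X)⟦X⟧ :=
  if h : IsB ρ F then h.choose.chc else 0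

/-- a map of families -/
structure HM (ρ : Y.G → M →ₗ[ℂ] M) (F : Y.T → Submodule ℂ M) (ρ' : Y.G → M' →ₗ[ℂ] M')
    (F' : Y.T → Submodule ℂ M') (A : Y.T → M →ₗ[ℂ] M') : Prop where
  mem : ∀ t, ∀ m ∈ F t, A t m ∈ F' t
  cont : ∀ m, WC fun t => A t m
  eqv : ∀ (g : Y.G) t, ∀ m ∈ F t, A (g • t) (ρ g m) = ρ' g (A t m)

/-- the trivial action -/
abbrev tv (Y : P269.Ch.Sp) (M : Type) [AddCommGroup M] [Module ℂ M] : Y.G → M →ₗ[ℂ] M :=
  fun _ => LinearMap.id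

variable {ρ : Y.G → M →ₗ[ℂ] M} {F G : Y.T → Submodule ℂ M} {ρ' : Y.G → M' →ₗ[ℂ] M'}
  {F' : Y.T → Submodule ℂ M'} {ρ'' : Y.G → M'' →ₗ[ℂ] M''} {F'' : Y.T → Submodule ℂ M''}
  {A : Y.T → M →ₗ[ℂ] M'} {B : Y.T → M' →ₗ[ℂ] M''} {E E' E'' : VB Y} {j : E.W →ₗ[ℂ] M}
  {j' : E'.W →ₗ[ℂ] M'} {j'' : E''.W →ₗ[ℂ] M''}

theorem HM.mono (h : HM ρ F ρ' F' A) {G' : Y.T → Submodule ℂ M'} (le : ∀ t, G t ≤ F t)
    (mem : ∀ t, ∀ m ∈ G t, A t m ∈ G' t) : HM ρ G ρ' G' A :=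
  ⟨mem, h.cont, fun g t m hm => h.eqv g t m (le t hm)⟩

theorem HM.incl (le : ∀ t, G t ≤ F t) : HM ρ G ρ F fun _ => LinearMap.id :=
  ⟨le, fun m => WC.const m, fun _ _ _ _ => rfl⟩

theorem md_self (E : VB Y) : Md (fun g => DistribSMul.toLinearMap ℂ E.W g) E.F E LinearMap.id :=
  ⟨injective_id, fun _ => Submodule.map_id _, fun _ _ _ _ => rfl⟩

namespace Md

theorem mem (h : Md ρ F E j) {t : Y.T} {w : E.W} : j w ∈ F t ↔ w ∈ E.F t :=
  ⟨fun k => by
    obtain ⟨v, hv, e⟩ := (h.map t).ge k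
    exact h.inj e ▸ hv, fun k => (h.map t).le ⟨w, k, rfl⟩⟩

theorem lft (h : Md ρ F E j) (w : E.W) : j.leftInverse (j w) = w :=
  LinearMap.leftInverse_apply_of_inj (LinearMap.ker_eq_bot.2 h.inj) w

theorem rgt (h : Md ρ F E j) {t : Y.T} {m : M} (hm : m ∈ F t) : j (j.leftInverse m) = m := by
  obtain ⟨v, -, rfl⟩ := (h.map t).ge hm
  rw [h.lft]

theorem lft_mem (h : Md ρ F E j) {t : Y.T} {m : M} (hm : m ∈ F t) : j.leftInverse m ∈ E.F t :=
  h.mem.1 ((h.rgt hm).symm ▸ hm)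

theorem rank (h : Md ρ F E j) (t : Y.T) : finrank ℂ (F t) = E.r := by
  rw [← h.map, finrank_map_of_inj fun w _ e => h.inj (e.trans j.map_zero.symm), E.rank]

theorem fin (h : Md ρ F E j) (t : Y.T) : FiniteDimensional ℂ (F t) := h.map t ▸ inferInstance

theorem inv (h : Md ρ F E j) (g : Y.G) {t : Y.T} {m : M} (hm : m ∈ F t) : ρ g m ∈ F (g • t) := by
  obtain ⟨v, hv, rfl⟩ := (h.map t).ge hm
  exact h.eqv g t v hv ▸ h.mem.2 (E.inv g t v hv)

/-- the map of the models -/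
noncomputable abbrev tr (j : E.W →ₗ[ℂ] M) (j' : E'.W →ₗ[ℂ] M') (A : Y.T → M →ₗ[ℂ] M') (t : Y.T) :
    E.W →ₗ[ℂ] E'.W := j'.leftInverse ∘ₗ A t ∘ₗ j

variable (h : Md ρ F E j) (h' : Md ρ' F' E' j') (k : HM ρ F ρ' F' A)
include h h' k

theorem j_tr {t : Y.T} {w : E.W} (hw : w ∈ E.F t) : j' (tr j j' A t w) = A t (j w) :=
  h'.rgt (k.mem t _ (h.mem.2 hw))

theorem hom : Hom (Mor.id Y) E E' (tr j j' A) :=
  Hom.of_continuous (fun t _ hw => h'.lft_mem (k.mem t _ (h.mem.2 hw)))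
    (WC.app fun w => (k.cont (j w)).map j'.leftInverse).cont fun g t w hw => h'.inj (by
      rw [h.j_tr h' k (E.inv g t w hw), h.eqv g t w hw, k.eqv g t _ (h.mem.2 hw),
        ← h.j_tr h' k hw]
      exact (h'.eqv g t _ (h'.lft_mem (k.mem t _ (h.mem.2 hw)))).symm)

theorem tr_zero {t : Y.T} {w : E.W} (hw : w ∈ E.F t) : tr j j' A t w = 0 ↔ A t (j w) = 0 := by
  rw [← h.j_tr h' k hw, map_eq_zero_iff _ h'.inj]

theorem tr_ex {t : Y.T} {w : E'.W} (e : ∃ m ∈ F t, A t m = j' w) :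
    ∃ v ∈ E.F t, tr j j' A t v = w := by
  obtain ⟨m, hm, e⟩ := e
  exact ⟨_, h.lft_mem hm, h'.inj (by rw [h.j_tr h' k (h.lft_mem hm), h.rgt hm, e])⟩

theorem tr_inj (inj : ∀ t, ∀ m ∈ F t, A t m = 0 → m = 0) (t : Y.T) (w : E.W) (hw : w ∈ E.F t)
    (e : tr j j' A t w = 0) : w = 0 :=
  (map_eq_zero_iff _ h.inj).1 (inj t _ (h.mem.2 hw) ((h.tr_zero h' k hw).1 e))

theorem iso (inj : ∀ t, ∀ m ∈ F t, A t m = 0 → m = 0)
    (surj : ∀ t, ∀ m' ∈ F' t, ∃ m ∈ F t, A t m = m') : Iso (Mor.id Y) E E' (tr j j' A) :=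
  ⟨h.hom h' k, h.tr_inj h' k inj, fun t _ hw => h.tr_ex h' k (surj t _ (h'.mem.2 hw))⟩

theorem map_ker (t : Y.T) :
    (E.F t ⊓ LinearMap.ker (tr j j' A t)).map j = F t ⊓ LinearMap.ker (A t) := by
  refine le_antisymm ?_ fun m hm => ⟨_, ⟨h.lft_mem hm.1, (h.tr_zero h' k (h.lft_mem hm.1)).2
    ((congrArg _ (h.rgt hm.1)).trans hm.2)⟩, h.rgt hm.1⟩
  rintro _ ⟨w, hw, rfl⟩
  exact ⟨h.mem.2 hw.1, (h.tr_zero h' k hw.1).1 hw.2⟩

end Md

theorem Md.ch (h : Md ρ F E j) : ch ρ F = E.chc := by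
  have h1 : IsB ρ F := ⟨E, j, h⟩
  obtain ⟨j₁, h2⟩ := h1.choose_spec
  rw [Rb.ch, dif_pos h1]
  exact Iso.chc' (h2.iso h (HM.incl fun _ => le_rfl) (fun _ _ _ e => e) fun _ m hm => ⟨m, hm, rfl⟩)

theorem ch_deg (ρ : Y.G → M →ₗ[ℂ] M) (F : Y.T → Submodule ℂ M) (k : ℕ) :
    coeff k (ch ρ F) ∈ Hev.deg Y.X k := by
  rw [ch]
  split_ifs
  exacts [chc_deg _ k, zero_mem _]

theorem rk_const {E E' E'' : VB Y} {A : Y.T → E.W →ₗ[ℂ] E'.W} {B : Y.T → E'.W →ₗ[ℂ] E''.W}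
    [PreconnectedSpace Y.T] (hA : Hom (Mor.id Y) E E' A) (hB : Hom (Mor.id Y) E' E'' B)
    (ex : ∀ t, (E.F t).map (A t) = E'.F t ⊓ LinearMap.ker (B t)) (t t' : Y.T) :
    finrank ℂ (E'.F t ⊓ LinearMap.ker (B t) : Submodule ℂ _) =
      finrank ℂ (E'.F t' ⊓ LinearMap.ker (B t') : Submodule ℂ _) := by
  have key : ∀ {E E' : VB Y} {A : Y.T → E.W →ₗ[ℂ] E'.W}, Hom (Mor.id Y) E E' A → ∀ n : ℕ,
      IsOpen {t | n ≤ finrank ℂ ((E.F t).map (A t))} := fun {E E' A} h n => by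
    refine (Set.ext fun t => ?_ : _ = {t | n ≤ finrank ℂ ((E.F t).map (A t))}) ▸
      (isOpen_setOfPred_nat_le_rank (𝕜 := ℂ) n).preimage h.continuous_clm
    have e : LinearMap.range (h.clm t : E.W →ₗ[ℂ] E'.W) = (E.F t).map (A t) := le_antisymm
      (by rintro _ ⟨w, rfl⟩; exact ⟨_, E.P_mem t w, rfl⟩)
      (by rintro _ ⟨w, hw, rfl⟩; exact ⟨w, h.clm_eq hw⟩)
    rw [mem_preimage, mem_ofPred_eq, mem_ofPred_eq, LinearMap.rank, e, ← finrank_eq_rank,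
      Nat.cast_le]
  have h1 := fun t => finrank_inf_ker (E'.F t) (B t)
  simp only [E'.rank] at h1
  replace h1 := fun t => ex t ▸ h1 t
  rw [← ex, ← ex]
  refine IsLocallyConstant.apply_eq_of_preconnectedSpace
    (f := fun t => finrank ℂ ((E.F t).map (A t))) ((IsLocallyConstant.iff_exists_open _).2 fun t =>
      ⟨_, (key hA _).inter (key hB _), ⟨le_refl (finrank ℂ ((E.F t).map (A t))),
        le_refl (finrank ℂ ((E'.F t).map (B t)))⟩, fun x hx => ?_⟩) t t'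
  have a1 := mem_ofPred_eq.le hx.1
  have a2 := mem_ofPred_eq.le hx.2
  have := h1 t
  have := h1 x
  omega

namespace IsB

theorem fin (h : IsB ρ F) (t : Y.T) : FiniteDimensional ℂ (F t) := h.choose_spec.choose_spec.fin t

theorem inv (h : IsB ρ F) (g : Y.G) {t : Y.T} {m : M} (hm : m ∈ F t) : ρ g m ∈ F (g • t) :=
  h.choose_spec.choose_spec.inv g hm

theorem coeff_zero (h : IsB ρ F) (t : Y.T) : coeff 0 (ch ρ F) = finrank ℂ (F t) := by
  obtain ⟨E, j, h⟩ := h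
  rw [h.ch, h.rank, VB.chc, coeff_zero_chP]

theorem rank (h : IsB ρ F) (t t' : Y.T) : finrank ℂ (F t) = finrank ℂ (F t') := by
  obtain ⟨E, j, h⟩ := h
  rw [h.rank, h.rank]

theorem iso (h : IsB ρ F) (h' : IsB ρ' F') (k : HM ρ F ρ' F' A)
    (inj : ∀ t, ∀ m ∈ F t, A t m = 0 → m = 0) (surj : ∀ t, ∀ m' ∈ F' t, ∃ m ∈ F t, A t m = m') :
    ch ρ F = ch ρ' F' := by
  obtain ⟨E, j, h⟩ := h
  obtain ⟨E', j', h'⟩ := h'
  rw [h.ch, h'.ch, Iso.chc' (h.iso h' k inj surj)]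

/-- **additivity** -/
theorem exact (h : IsB ρ F) (h' : IsB ρ' F') (h'' : IsB ρ'' F'') (kA : HM ρ F ρ' F' A)
    (kB : HM ρ' F' ρ'' F'' B) (inj : ∀ t, ∀ m ∈ F t, A t m = 0 → m = 0)
    (surj : ∀ t, ∀ m'' ∈ F'' t, ∃ m' ∈ F' t, B t m' = m'')
    (ex : ∀ t, ∀ m' ∈ F' t, B t m' = 0 ↔ ∃ m ∈ F t, A t m = m') :
    ch ρ' F' = ch ρ F + ch ρ'' F'' := by
  obtain ⟨E, j, h⟩ := h
  obtain ⟨E', j', h'⟩ := h'
  obtain ⟨E'', j'', h''⟩ := h''
  rw [h.ch, h'.ch, h''.ch]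
  refine Exact.chc ⟨h.hom h' kA, h'.hom h'' kB, h.tr_inj h' kA inj,
    fun t _ hw => h'.tr_ex h'' kB (surj t _ (h''.mem.2 hw)), fun t w hw => ?_⟩
  rw [h'.tr_zero h'' kB hw, ex t _ (h'.mem.2 hw)]
  refine ⟨h.tr_ex h' kA, ?_⟩
  rintro ⟨v, hv, rfl⟩
  exact ⟨_, h.mem.2 hv, (h.j_tr h' kA hv).symm⟩

/-- kernels of constant rank -/
theorem ker (h : IsB ρ F) (h' : IsB ρ' F') (k : HM ρ F ρ' F' A) {r : ℕ}
    (hr : ∀ t, finrank ℂ (F t ⊓ LinearMap.ker (A t) : Submodule ℂ M) = r) :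
    IsB ρ fun t => F t ⊓ LinearMap.ker (A t) := by
  obtain ⟨E, j, h⟩ := h
  obtain ⟨E', j', h'⟩ := h'
  exact ⟨(h.hom h' k).ker r fun t => by rw [← hr t, ← h.map_ker h' k, finrank_map_of_inj
    fun w _ e => h.inj (e.trans j.map_zero.symm)], j, h.inj, h.map_ker h' k,
    fun g t w hw => h.eqv g t w hw.1⟩

/-- **the kernel in an exact sequence is a bundle** -/
theorem ker_ex [PreconnectedSpace Y.T] (h : IsB ρ F) (h' : IsB ρ' F') (h'' : IsB ρ'' F'')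
    (kA : HM ρ F ρ' F' A) (kB : HM ρ' F' ρ'' F'' B)
    (ex : ∀ t, ∀ m' ∈ F' t, B t m' = 0 ↔ ∃ m ∈ F t, A t m = m') :
    IsB ρ' fun t => F' t ⊓ LinearMap.ker (B t) := by
  rcases isEmpty_or_nonempty Y.T with _ | ⟨⟨t₀⟩⟩
  · exact h'.ker h'' kB (r := 0) fun t => isEmptyElim t
  refine h'.ker h'' kB fun t => (?_ : _ = finrank ℂ (F' t₀ ⊓ LinearMap.ker (B t₀) : Submodule ℂ _))
  obtain ⟨E, j, h⟩ := h
  obtain ⟨E', j', h'⟩ := h'
  obtain ⟨E'', j'', h''⟩ := h''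
  have i : ∀ S : Submodule ℂ E'.W, finrank ℂ (S.map j') = finrank ℂ S := fun S =>
    finrank_map_of_inj fun w _ e => h'.inj (e.trans j'.map_zero.symm)
  rw [← h'.map_ker h'' kB, ← h'.map_ker h'' kB, i, i]
  refine rk_const (h.hom h' kA) (h'.hom h'' kB) (fun t => le_antisymm ?_ fun w hw =>
    h.tr_ex h' kA ((ex t _ (h'.mem.2 hw.1)).1 ((h'.tr_zero h'' kB hw.1).1 hw.2))) t t₀
  rintro _ ⟨w, hw, rfl⟩
  have h1 := (h.hom h' kA).mem t w hw
  exact ⟨h1, (h'.tr_zero h'' kB h1).2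
    ((ex t _ (h'.mem.2 h1)).2 ⟨_, h.mem.2 hw, (h.j_tr h' kA hw).symm⟩)⟩

theorem ch_ker (h : IsB ρ F) (h' : IsB ρ' F') (k : HM ρ F ρ' F' A)
    (hk : IsB ρ fun t => F t ⊓ LinearMap.ker (A t))
    (surj : ∀ t, ∀ m' ∈ F' t, ∃ m ∈ F t, A t m = m') :
    ch ρ F = ch ρ (fun t => F t ⊓ LinearMap.ker (A t)) + ch ρ' F' :=
  hk.exact h h' (HM.incl fun _ => inf_le_left) k (fun _ _ _ e => e) surj fun _ m hm =>
    ⟨fun e => ⟨m, ⟨hm, e⟩, rfl⟩, by rintro ⟨m', hm', rfl⟩; exact hm'.2⟩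

theorem congr {σ : Y.G → M →ₗ[ℂ] M} (h : IsB ρ F) (e : ∀ g t, ∀ m ∈ F t, ρ g m = σ g m) :
    IsB σ F ∧ ch σ F = ch ρ F := by
  obtain ⟨E, j, h⟩ := h
  have h' : Md σ F E j := ⟨h.inj, h.map, fun g t w hw => (h.eqv g t w hw).trans
    (e g t _ (h.mem.2 hw))⟩
  exact ⟨⟨E, j, h'⟩, h'.ch.trans h.ch.symm⟩

/-- **pull-back and twist** -/
theorem tw (h : IsB ρ F) (m : Mor Y' Y) (χ : Y'.G →ₜ* ℂˣ) :
    IsB (fun g => (χ g : ℂ) • ρ (m.ρ g)) (fun t => F (m.f t)) ∧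
      ch (fun g => (χ g : ℂ) • ρ (m.ρ g)) (fun t => F (m.f t)) =
        ex (c1 χ) * pS m.map (ch ρ F) := by
  obtain ⟨E, j, h⟩ := h
  have h' : Md (fun g => (χ g : ℂ) • ρ (m.ρ g)) (fun t => F (m.f t)) (E.tw m χ) j :=
    ⟨h.inj, fun t => h.map _, fun g t w hw =>
      (j.map_smul _ _).trans (congrArg ((χ g : ℂ) • ·) (h.eqv (m.ρ g) _ w hw))⟩
  exact ⟨⟨_, _, h'⟩, by rw [h'.ch, h.ch, chc_tw]⟩

theorem pb (h : IsB ρ F) (m : Mor Y' Y) : IsB (fun g => ρ (m.ρ g)) (fun t => F (m.f t)) ∧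
    ch (fun g => ρ (m.ρ g)) (fun t => F (m.f t)) = pS m.map (ch ρ F) := by
  obtain ⟨E, j, h⟩ := h
  have h' : Md (fun g => ρ (m.ρ g)) (fun t => F (m.f t)) (E.pb m) j :=
    ⟨h.inj, fun t => h.map _, fun g t w hw => h.eqv (m.ρ g) _ w hw⟩
  exact ⟨⟨_, _, h'⟩, by rw [h'.ch, h.ch, chc_pb]⟩

theorem ch_zero (h : IsB ρ F) (e : ∀ t, ∀ m ∈ F t, m = 0) : ch ρ F = 0 := by
  rcases isEmpty_or_nonempty Y.T with _ | ⟨⟨t⟩⟩
  · exact subsingleton_series.elim _ _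
  obtain ⟨E, j, h⟩ := h
  rw [h.ch, chc_zero E (by rw [← h.rank t, show F t = ⊥ from eq_bot_iff.2 (e t), finrank_bot])]

/-- **direct sums** -/
theorem ch_sum [PreconnectedSpace Y.T] {K : Type} [DecidableEq K] {F' : K → Y.T → Submodule ℂ M'}
    (h' : ∀ k, IsB ρ' (F' k)) {π : K → M →ₗ[ℂ] M'} {s : K → M' →ₗ[ℂ] M} (S : Finset K) :
    ∀ {F : Y.T → Submodule ℂ M}, IsB ρ F → (∀ k ∈ S, HM ρ F ρ' (F' k) fun _ => π k) →
      (∀ k ∈ S, HM ρ' (F' k) ρ F fun _ => s k) → (∀ t, ∀ m ∈ F t, ∑ k ∈ S, s k (π k m) = m) →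
      (∀ k ∈ S, ∀ l ∈ S, ∀ t, ∀ m ∈ F' l t, π k (s l m) = if k = l then m else 0) →
      ch ρ F = ∑ k ∈ S, ch ρ' (F' k) := by
  induction S using Finset.induction_on with
  | empty => exact fun h _ _ h1 _ => h.ch_zero fun t m hm => (h1 t m hm).symm
  | insert a S ha ih =>
    intro F h hπ hs h1 h2
    have a1 := Finset.mem_insert_self a S
    have a2 : ∀ {k}, k ∈ S → k ∈ insert a S := Finset.mem_insert_of_mem
    have a3 : ∀ t, ∀ m ∈ F' a t, π a (s a m) = m := fun t m hm =>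
      (h2 a a1 a a1 t m hm).trans (if_pos rfl)
    have hk : IsB ρ fun t => F t ⊓ LinearMap.ker (π a) := h.ker_ex
      (A := fun _ => LinearMap.id - s a ∘ₗ π a) h (h' a) ⟨fun t m hm => sub_mem hm
        ((hs a a1).mem t _ ((hπ a a1).mem t m hm)), fun _ => WC.const _, fun g t m hm => by
          show ρ g m - s a (π a (ρ g m)) = ρ g (m - s a (π a m))
          rw [map_sub, (hπ a a1).eqv g t m hm, (hs a a1).eqv g t _ ((hπ a a1).mem t m hm)]⟩
      (hπ a a1) fun t m hm => ⟨fun e => ⟨m, hm, show m - s a (π a m) = m by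
        rw [e, map_zero, sub_zero]⟩, by
        rintro ⟨m', hm', rfl⟩
        show π a (m' - s a (π a m')) = 0
        rw [map_sub, a3 t _ ((hπ a a1).mem t m' hm'), sub_self]⟩
    rw [Finset.sum_insert ha, h.ch_ker (h' a) (hπ a a1) hk fun t m hm =>
      ⟨_, (hs a a1).mem t m hm, a3 t m hm⟩, add_comm]
    refine congrArg _ (ih hk (fun k hk => (hπ k (a2 hk)).mono (fun _ => inf_le_left)
      fun t m hm => (hπ k (a2 hk)).mem t m hm.1) (fun k hk => (hs k (a2 hk)).mono (fun _ => le_rfl)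
      fun t m hm => ⟨(hs k (a2 hk)).mem t m hm, (h2 a a1 k (a2 hk) t m hm).trans
        (if_neg fun e : a = k => ha (e ▸ hk))⟩) (fun t m hm => ?_) fun k hk l hl => h2 k (a2 hk) l (a2 hl))
    have := h1 t m hm.1
    rwa [Finset.sum_insert ha, show π a m = 0 from hm.2, map_zero, zero_add] at this

end IsB

theorem chc_trivB (Y : P269.Ch.Sp) (ι : Type) [Fintype ι] :
    (trivB Y (ι → ℂ)).chc = (Fintype.card ι : (Hev Y.X)⟦X⟧) := by
  classical
  have h : Fr (trivB Y (ι → ℂ)) (fun _ : ι => 1) fun i _ => (Pi.single i 1 : ι → ℂ) :=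
    Fr.of_li (fun _ => continuous_const) (fun _ _ _ => (one_smul ℂ _).symm)
      (fun _ => Pi.linearIndependent_single_one ι ℂ) (fun _ _ => trivial) (finrank_pi ℂ).symm
  rw [Fr.chc h]
  simp [c1_one, ex_zero]

/-- a constant family -/
theorem isB_const (Y : P269.Ch.Sp) (P : Submodule ℂ M) [FiniteDimensional ℂ P] :
    IsB (tv Y M) (fun _ => P) ∧ ch (tv Y M) (fun _ => P) = finrank ℂ P := by
  have h : Md (tv Y M) (fun _ => P) (trivB Y (Fin (finrank ℂ P) → ℂ))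
      (P.subtype ∘ₗ (finBasis ℂ P).equivFun.symm.toLinearMap) :=
    ⟨P.injective_subtype.comp (finBasis ℂ P).equivFun.symm.injective, fun _ =>
      (Submodule.map_top _).trans ((LinearMap.range_comp_of_range_eq_top _
        (finBasis ℂ P).equivFun.symm.range).trans P.range_subtype), fun _ _ _ _ => rfl⟩
  exact ⟨⟨_, _, h⟩, by rw [h.ch, chc_trivB, Fintype.card_fin]⟩

/-- the fixed vectors of a family of projectors -/
theorem IsB.fix [PreconnectedSpace Y.T] (h : IsB ρ F) {π : Y.T → M →ₗ[ℂ] M} (k : HM ρ F ρ F π)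
    (pp : ∀ t, ∀ m ∈ F t, π t (π t m) = π t m) (hG : ∀ t m, m ∈ G t ↔ m ∈ F t ∧ π t m = m) :
    IsB ρ G := by
  have := h.ker_ex (B := fun t => LinearMap.id - π t) h h k ⟨fun t m hm => sub_mem hm (k.mem t m hm),
    fun m => (WC.const m).sub (k.cont m), fun g t m hm => by
      show ρ g m - π (g • t) (ρ g m) = ρ g (m - π t m)
      rw [map_sub, k.eqv g t m hm]⟩ fun t m hm => ⟨fun e => ⟨m, hm, (sub_eq_zero.1 e).symm⟩, by
      rintro ⟨m', hm', rfl⟩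
      exact sub_eq_zero.2 (pp t m' hm').symm⟩
  rwa [show G = fun t => F t ⊓ LinearMap.ker (LinearMap.id - π t) from funext fun t =>
    Submodule.ext fun m => (hG t m).trans (and_congr_right fun _ =>
      eq_comm.trans sub_eq_zero.symm)]

/-- the action on forms -/
def omA (ρ : Y.G → M →ₗ[ℂ] M) (i : ℕ) (g : Y.G) : Om M i →ₗ[ℂ] Om M i where
  toFun := (ρ g).compAlternatingMap
  map_add' := LinearMap.compAlternatingMap_add _
  map_smul' c ω := AlternatingMap.ext fun v => (ρ g).map_smul c (ω v)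

/-- **forms with values in a bundle** -/
theorem IsB.og (h : IsB ρ F) (i : ℕ) : IsB (omA ρ i) (fun t => Og (F t) i) ∧
    ch (omA ρ i) (fun t => Og (F t) i) = Nat.choose 6 i * ch ρ F := by
  obtain ⟨E, j, h⟩ := h
  let S := trivB Y (Fin 6 → ℂ)
  let j₁ : (S.bot.alt E i).W →ₗ[ℂ] Om M i :=
    { toFun := fun α => j.compAlternatingMap (alv α).toAlternatingMap
      map_add' := fun _ _ => AlternatingMap.ext fun _ => j.map_add _ _
      map_smul' := fun _ _ => AlternatingMap.ext fun _ => j.map_smul _ _ }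
  have h' : Md (omA ρ i) (fun t => Og (F t) i) (S.bot.alt E i) j₁ := by
    refine ⟨fun a b e => alv_ext fun v => h.inj (DFunLike.congr_fun e v), fun t => le_antisymm ?_
      fun ω hω => ?_, fun g t α hα => AlternatingMap.ext fun v => h.eqv g t _ (hα.1 v)⟩
    · rintro _ ⟨α, hα, rfl⟩
      exact mem_Og.2 fun v => h.mem.2 (hα.1 v)
    · exact ⟨toC _ _ _ (j.leftInverse.compAlternatingMap ω),
        ⟨fun v => h.lft_mem (mem_Og.1 hω v), fun v k hk =>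
          (congrArg j.leftInverse (hω.2 v k hk)).trans (map_zero _)⟩,
        AlternatingMap.ext fun v => h.rgt (mem_Og.1 hω v)⟩
  have h1 : Fr S (fun _ : Fin 6 => 1) fun i _ => (Pi.single i 1 : Fin 6 → ℂ) :=
    Fr.of_li (fun _ => continuous_const) (fun _ _ _ => (one_smul ℂ _).symm)
      (fun _ => Pi.linearIndependent_single_one _ ℂ) (fun _ _ => trivial) (finrank_pi ℂ).symm
  refine ⟨⟨_, _, h'⟩, ?_⟩
  rw [h'.ch, h.ch, chc_alt, chc_alt_fr S (fun _ => rfl) h1]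
  simp [c1_one, ex_zero]

theorem IsB.og_tv (h : IsB (tv Y M) F) (i : ℕ) : IsB (tv Y _) (fun t => Og (F t) i) ∧
    ch (tv Y _) (fun t => Og (F t) i) = Nat.choose 6 i * ch (tv Y M) F := h.og i

end Vale.Agent.P287T.Rb
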