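import Vale.Agent.P287T.Rb.Tk

/-!
# Families of graded modules and their linear resolutions
-/

set_option linter.unusedSectionVars false

namespace Vale.Agent.P287T.Rb

open Set Function Module P291Z P269.Ch P269.Grr PowerSeries P287T.Rr P287T.Cy

variable {M N : Type} [AddCommGroup M] [Module ℂ M] [AddCommGroup N] [Module ℂ N]
  {Y : P269.Ch.Sp}

theorem ch_bot {ρ : Y.G → M →ₗ[ℂ] M} {F : Y.T → Submodule ℂ M} (e : ∀ t, ∀ m ∈ F t, m = 0) :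
    ch ρ F = 0 := by
  by_cases h : IsB ρ F
  exacts [h.ch_zero e, dif_neg h]

theorem isB_bot (ρ : Y.G → M →ₗ[ℂ] M) {F : Y.T → Submodule ℂ M} (e : ∀ t, ∀ m ∈ F t, m = 0) :
    IsB ρ F := by
  rw [show F = fun _ => ⊥ from funext fun t => eq_bot_iff.2 (e t)]
  exact ((isB_const Y ⊥).1.congr fun g _ m (hm : m = 0) => by rw [hm, map_zero, map_zero]).1

/-- the action by a character -/
noncomputable abbrev sc (M : Type) [AddCommGroup M] [Module ℂ M] (χ : Y.G →ₜ* ℂˣ) (g : Y.G) :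
    M →ₗ[ℂ] M := (χ g : ℂ) • LinearMap.id

theorem HM.const {M' : Type} [AddCommGroup M'] [Module ℂ M'] {F : Y.T → Submodule ℂ M}
    {F' : Y.T → Submodule ℂ M'} {A : M →ₗ[ℂ] M'} (h : ∀ t, ∀ m ∈ F t, A m ∈ F' t) :
    HM (tv Y M) F (tv Y M') F' fun _ => A := ⟨h, fun _ => WC.const _, fun _ _ _ _ => rfl⟩

variable [Module S6 M] [IsScalarTower ℂ S6 M]

/-- a family of graded modules with exact Koszul complexes -/
structure KF (Z : Y.T → ℤ → Submodule ℂ M) (a₀ : ℤ) : Prop where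
  isB : ∀ a, a₀ ≤ a → IsB (tv Y M) fun t => Z t a
  mu : ∀ t a, Mu (Z t a) (Z t (a + 2))
  ke : ∀ t a j, a₀ ≤ a → KE (Z t a) (Z t (a + 2)) j
  cn : PreconnectedSpace Y.T

namespace KF

variable {Z : Y.T → ℤ → Submodule ℂ M} {a₀ a : ℤ} (h : KF Z a₀)
include h

theorem isF (ha : a₀ + 2 ≤ a) : ∀ j, IsB (tv Y _) fun t => FF (Z t a) j
  | 0 => ((h.isB a (by omega)).og_tv 0).1
  | j + 1 => by
    obtain ⟨a, rfl⟩ : ∃ b, a = b + 2 := ⟨a - 2, by ring⟩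
    have := h.cn
    exact ((h.isB a (by omega)).og_tv (j + 2)).1.ker_ex
      ((h.isB _ (by omega)).og_tv (j + 1)).1 ((h.isB (a + 2 + 2) (by omega)).og_tv j).1
      (HM.const (A := del (j + 1)) fun t _ => (h.mu t a).del_mem)
      (HM.const (A := del j) fun t _ => (h.mu t _).del_mem) fun t ω hω =>
        ⟨fun e => h.ke t a (j + 1) (by omega) ω ⟨hω, e⟩, by
          rintro ⟨η, -, rfl⟩
          exact del_del η⟩

theorem chF (ha : a₀ + 2 ≤ a) (j : ℕ) : ch (tv Y _) (fun t => FF (Z t (a + 2)) j) +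
    ch (tv Y _) (fun t => FF (Z t a) (j + 1)) =
      Nat.choose 6 (j + 1) * ch (tv Y M) fun t => Z t a := by
  have h1 := (h.isB a (by omega)).og_tv (j + 1)
  rw [← h1.2, h1.1.ch_ker (h.isF (a := a + 2) (by omega) j)
    (HM.const (A := del j) fun t _ => (h.mu t a).del_FF) (h.isF ha (j + 1))
    fun t => h.ke t a j (by omega), add_comm]
  rfl

theorem chF0 (ha : a₀ ≤ a) : ch (tv Y _) (fun t => FF (Z t a) 0) = ch (tv Y M) fun t => Z t a :=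
  ((h.isB a ha).og_tv 0).2.trans (by rw [Nat.choose_zero_right, Nat.cast_one, one_mul])

end KF

/-- the value of a form of degree zero -/
def ev0 (M : Type) [AddCommGroup M] [Module ℂ M] : Om M 0 →ₗ[ℂ] M where
  toFun ω := ω 0
  map_add' _ _ := rfl
  map_smul' _ _ := rfl

/-- **the linear resolution** -/
theorem beil [PreconnectedSpace Y.T] {P : Y.T → Submodule ℂ M} {χ : Y.G →ₜ* ℂˣ}
    {ψ : ℕ → Y.G →ₜ* ℂˣ} (hψ : ∀ j g, (ψ (j + 1) g : ℂ) * χ g = ψ j g) {x : Y.T → Fin 6 → ℂ}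
    (cx : Continuous x) (ex : ∀ (g : Y.G) t, x (g • t) = (χ g : ℂ) • x t)
    (hF : ∀ j, IsB (sc _ (ψ j)) fun t => FF (P t) j) {ρ : Y.G → N →ₗ[ℂ] N}
    {G : Y.T → Submodule ℂ N} (hG : IsB ρ G) {ev : Y.T → M →ₗ[ℂ] N}
    (he : HM (sc M (ψ 0)) P ρ G ev) (ie : ∀ t, IsEv (ev t) (x t))
    (surj : ∀ t, ∀ n ∈ G t, ∃ m ∈ P t, ev t m = n) (ae : ∀ t j, AE (P t) (ev t) (x t) j) :
    ch ρ G = ∑ j ∈ Finset.range 7, (-1) ^ j * ch (sc _ (ψ j)) fun t => FF (P t) j := by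
  have h0 : HM (sc _ (ψ 0)) (fun t => FF (P t) 0) ρ G fun t => ev t ∘ₗ ev0 M :=
    ⟨fun t ω hω => he.mem t _ (mem_Og.1 hω 0), fun ω => he.cont _,
      fun g t ω hω => he.eqv g t _ (mem_Og.1 hω 0)⟩
  have h1 : ∀ j, HM (sc _ (ψ (j + 1))) (fun t => FF (P t) (j + 1)) (sc _ (ψ j))
      (fun t => FF (P t) j) fun t => ct (x t) j := fun j =>
    ⟨fun t _ => ct_FF _, fun ω => (WC.of_cont cx).map ω.curryLeft, fun g t ω _ => by
      show ((ψ (j + 1) g : ℂ) • ω).curryLeft (x (g • t)) = (ψ j g : ℂ) • ω.curryLeft (x t)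
      rw [ex, map_smul, AlternatingMap.curryLeft_smul, LinearMap.smul_apply, smul_smul, ← hψ j g,
        mul_comm]⟩
  have c0 : ∀ t, ∀ η ∈ FF (P t) 1, ev t (ct (x t) 0 η 0) = 0 := fun t η hη => by
    rw [← (ie t).del, hη.2, AlternatingMap.zero_apply, map_zero]
  have k0 := (hF 1).ker_ex (hF 0) hG (h1 0) h0 fun t ω hω => ⟨ae t 0 ω hω, by
    rintro ⟨η, hη, rfl⟩
    exact c0 t η hη⟩
  have k1 := fun j => (hF (j + 2)).ker_ex (hF (j + 1)) (hF j) (h1 (j + 1)) (h1 j) fun t ω hω =>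
    ⟨ae t (j + 1) ω hω, by
      rintro ⟨η, -, rfl⟩
      exact ct_ct _ η⟩
  have e0 := (hF 0).ch_ker hG h0 k0 fun t n hn => by
    obtain ⟨m, hm, rfl⟩ := surj t n hn
    exact ⟨AlternatingMap.constOfIsEmpty ℂ _ _ m, mem_Og.2 fun _ => hm, rfl⟩
  have e1 := (hF 1).ch_ker k0 ((h1 0).mono (fun _ => le_rfl) fun t η hη =>
    ⟨ct_FF _ hη, c0 t η hη⟩) (k1 0) fun t ω hω => ae t 0 ω hω.1 hω.2
  have e2 := fun j => (hF (j + 2)).ch_ker (k1 j) ((h1 (j + 1)).mono (fun _ => le_rfl) fun t η hη =>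
    ⟨ct_FF _ hη, ct_ct _ η⟩) (k1 (j + 1)) fun t ω hω => ae t (j + 1) ω hω.1 hω.2
  have e3 := (k1 5).ch_zero fun t ω hω => by
    obtain ⟨η, -, rfl⟩ := ae t 6 ω hω.1 hω.2
    rw [om_top (by norm_num) η, map_zero]
  simp only [Finset.sum_range_succ, Finset.sum_range_zero]
  linear_combination -e0 + e1 - e2 0 + e2 1 - e2 2 + e2 3 - e2 4 - e3

end Vale.Agent.P287T.Rb
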